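import Vale.Agent.P241.BD.Defs

/-!
# P241, block BD: calculus of `Cl s X` (finite even complexes with listed cells)

* `Cl.of_iso`, `Cl.shift`, `Cl.tensor`, `Cl.dist`;
* `Cl.evenCell`, `Cl.exists_of_evenCell`: comparison with `EvenCell`;
* `Cl.hom_eq_zero`: no maps from cells of dimension `2k < m` to `m`-connective objects;
* `Cl.existsUnique_lift`: maps from `X` with cells of dimension `≤ 2d` lift uniquely to a
  `2d`-skeleton.
-/

open CategoryTheory MonoidalCategory Limits Pretriangulated ZeroObject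
open Vale.Agent.P251.T Vale.Agent.P251.S Vale.Agent.P251.H Vale.Agent.P251.M

universe v u

set_option linter.unusedSectionVars false

namespace Vale.Agent.P241.BD

variable {T : Type u} [Category.{v} T] [Preadditive T] [HasZeroObject T]
    [HasShift T ℤ] [∀ n : ℤ, (shiftFunctor T n).Additive] [Pretriangulated T]
    [MonoidalCategory T]

namespace Cl

lemma congr {s t : Multiset ℤ} {X : T} (h : s = t) (hX : Cl T s X) : Cl T t X := h ▸ hX

lemma of_iso {s : Multiset ℤ} {X Y : T} (e : X ≅ Y) (hX : Cl T s X) : Cl T s Y := by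
  have h : Cl T (s + 0) Y := by
    refine ext (Triangle.mk e.hom (0 : Y ⟶ (0 : T)) 0) ?_ hX (zero _ (isZero_zero T))
    rw [Triangle.distinguished_iff_of_isZero₃ _ (isZero_zero T)]
    change IsIso e.hom
    infer_instance
  rwa [add_zero] at h

lemma dist {s t : Multiset ℤ} {X Y Z : T} {f : X ⟶ Y} {g : Y ⟶ Z} {h : Z ⟶ X⟦(1 : ℤ)⟧}
    (D : Dist f g h) (hX : Cl T s X) (hZ : Cl T t Z) : Cl T (s + t) Y :=
  ext _ D hX hZ

lemma unit : Cl T {0} (𝟙_ T) :=
  of_iso ((shiftFunctorZero' T (2 * (0 : ℤ)) (by ring)).app (𝟙_ T)) (sphere 0)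

lemma sphere' (n k : ℤ) (hn : 2 * k = n) : Cl T {k} ((𝟙_ T)⟦n⟧) := by
  subst hn; exact sphere k

lemma shift {s : Multiset ℤ} {X : T} (hX : Cl T s X) (m : ℤ) :
    Cl T (s.map (· + m)) (X⟦2 * m⟧) := by
  induction hX with
  | zero X hX => exact zero _ ((shiftFunctor T (2 * m)).map_isZero hX)
  | sphere k =>
    exact of_iso ((shiftFunctorAdd' T (2 * k) (2 * m) (2 * (k + m)) (by ring)).app (𝟙_ T))
      (by simpa using sphere (T := T) (k + m))
  | ext Δ hΔ _ _ ih₁ ih₃ =>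
    rw [Multiset.map_add]
    exact ext _ (Triangle.shift_distinguished Δ hΔ (2 * m)) ih₁ ih₃

/-- `Cl` gives `EvenCell`. -/
lemma evenCell {s : Multiset ℤ} {X : T} (hX : Cl T s X) {d : ℤ} (hs : ∀ k ∈ s, d ≤ k) :
    EvenCell T d X := by
  induction hX with
  | zero X hX => exact EvenCell.zero _ hX
  | sphere k => exact EvenCell.sphere k (hs k (by simp))
  | ext Δ hΔ _ _ ih₁ ih₃ =>
    exact EvenCell.ext Δ hΔ (ih₁ fun k hk => hs k (Multiset.mem_add.mpr (Or.inl hk)))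
      (ih₃ fun k hk => hs k (Multiset.mem_add.mpr (Or.inr hk)))

lemma exists_evenCell {s : Multiset ℤ} {X : T} (hX : Cl T s X) : ∃ d, EvenCell T d X := by
  obtain ⟨d, hd⟩ : ∃ d : ℤ, ∀ k ∈ s, d ≤ k := by
    induction s using Multiset.induction with
    | empty => exact ⟨0, by simp⟩
    | cons a s _ =>
      obtain ⟨d, hd⟩ := (inferInstance : IsDirectedOrder (ℤ)ᵒᵈ) |> fun _ =>
        show ∃ d : ℤ, ∀ k ∈ (a ::ₘ s).toFinset, d ≤ k from
          ⟨((a ::ₘ s).toFinset.toList.foldr min 0), fun k hk => by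
            have : ∀ (l : List ℤ), k ∈ l → l.foldr min 0 ≤ k := by
              intro l hl
              induction l with
              | nil => simp at hl
              | cons b l ih =>
                rcases List.mem_cons.mp hl with rfl | h
                · exact min_le_left _ _
                · exact (min_le_right _ _).trans (ih h)
            exact this _ (Finset.mem_toList.mpr hk)⟩
      exact ⟨d, fun k hk => hd k (Multiset.mem_toFinset.mpr hk)⟩
  exact ⟨d, hX.evenCell hd⟩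

/-- `EvenCell` gives `Cl`. -/
lemma exists_of_evenCell {d : ℤ} {X : T} (hX : EvenCell T d X) :
    ∃ s : Multiset ℤ, Cl T s X ∧ ∀ k ∈ s, d ≤ k := by
  induction hX with
  | zero X hX => exact ⟨0, zero X hX, by simp⟩
  | sphere k hk => exact ⟨{k}, sphere k, by simpa using hk⟩
  | ext Δ hΔ _ _ ih₁ ih₃ =>
    obtain ⟨s, hs, hs'⟩ := ih₁
    obtain ⟨t, ht, ht'⟩ := ih₃
    refine ⟨s + t, ext Δ hΔ hs ht, fun k hk => ?_⟩
    rcases Multiset.mem_add.mp hk with h | h
    exacts [hs' k h, ht' k h]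

/-- even complexes are compact -/
lemma compactObj [HasCoproducts.{0} T] {s : Multiset ℤ} {X : T} (hX : Cl T s X)
    (hcomp : ∀ k : ℤ, CompactObj ((𝟙_ T)⟦k⟧)) : CompactObj X := by
  obtain ⟨d, hd⟩ := hX.exists_evenCell
  exact hd.compact hcomp

section Tensor

variable [SymmetricCategory T] [TensorTriangulated T]

lemma tensorLeft_shift {s : Multiset ℤ} {X : T} (hX : Cl T s X) (k : ℤ) :
    Cl T (s.map (· + k)) (X ⊗ ((𝟙_ T)⟦2 * k⟧)) :=
  of_iso (tensorUnitShiftIso X (2 * k)).symm (hX.shift k)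

/-- The cells of `X ⊗ Y`. -/
lemma tensor {s t : Multiset ℤ} {X Y : T} (hX : Cl T s X) (hY : Cl T t Y) :
    Cl T (t.bind fun k => s.map (· + k)) (X ⊗ Y) := by
  induction hY with
  | zero Y hY =>
    rw [Multiset.zero_bind]
    refine zero _ ?_
    rw [IsZero.iff_id_eq_zero, ← MonoidalCategory.whiskerLeft_id,
      (IsZero.iff_id_eq_zero Y).mp hY, MonoidalPreadditive.whiskerLeft_zero]
  | sphere k =>
    rw [Multiset.singleton_bind]
    exact hX.tensorLeft_shift k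
  | ext Δ hΔ _ _ ih₁ ih₃ =>
    rw [Multiset.add_bind]
    exact ext _ (TensorTriangulated.distinguished X Δ hΔ) ih₁ ih₃

end Tensor

/-- No maps from cells of dimension `2k < m` to `m`-connective objects. -/
lemma hom_eq_zero {s : Multiset ℤ} {X Z : T} (hX : Cl T s X) {m : ℤ} (hs : ∀ k ∈ s, 2 * k < m)
    (hZ : Conn m Z) (f : X ⟶ Z) : f = 0 := by
  induction hX with
  | zero X hX => exact hX.eq_of_src _ _
  | sphere k => exact hZ (2 * k) (hs k (by simp)) f
  | ext Δ hΔ _ _ ih₁ ih₃ =>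
    have h1 := ih₁ (fun k hk => hs k (Multiset.mem_add.mpr (Or.inl hk))) (Δ.mor₁ ≫ f)
    obtain ⟨g, hg⟩ := Triangle.yoneda_exact₂ Δ hΔ f h1
    rw [hg, ih₃ (fun k hk => hs k (Multiset.mem_add.mpr (Or.inr hk))) g, comp_zero]

/-- Lifting along a map with highly connected cofibre. -/
lemma exists_lift {s : Multiset ℤ} {X A B J : T} (hX : Cl T s X) {m : ℤ}
    (hs : ∀ k ∈ s, 2 * k < m) {i : A ⟶ B} {q : B ⟶ J} {w : J ⟶ A⟦(1 : ℤ)⟧} (D : Dist i q w)
    (hJ : Conn m J) (f : X ⟶ B) : ∃ g : X ⟶ A, g ≫ i = f := by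
  obtain ⟨g, hg⟩ := Triangle.coyoneda_exact₂ _ D f (hX.hom_eq_zero hs hJ _)
  exact ⟨g, hg.symm⟩

lemma lift_unique {s : Multiset ℤ} {X A B J : T} (hX : Cl T s X) {m : ℤ}
    (hs : ∀ k ∈ s, 2 * k + 1 < m) {i : A ⟶ B} {q : B ⟶ J} {w : J ⟶ A⟦(1 : ℤ)⟧} (D : Dist i q w)
    (hJ : Conn m J) {f g : X ⟶ A} (h : f ≫ i = g ≫ i) : f = g := by
  rw [← sub_eq_zero]
  obtain ⟨a, ha⟩ := Triangle.coyoneda_exact₂ _ (inv_rot_of_distTriang _ D) (f - g) (by
    change (f - g) ≫ i = 0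
    rw [Preadditive.sub_comp, h, sub_self])
  have h0 : a = 0 := hX.hom_eq_zero (m := m - 1) (fun k hk => by have := hs k hk; omega)
    (hJ.shift (-1) (m - 1) (by ring)) a
  rw [ha, h0]
  exact zero_comp

end Cl

namespace OddZero

lemma of_iso {K L : T} (e : K ≅ L) (h : OddZero K) : OddZero L := fun k f => by
  rw [← cancel_mono e.inv, h k (f ≫ e.inv), zero_comp]

lemma ext (Δ : Triangle T) (hΔ : Δ ∈ distTriang T) (h₁ : OddZero Δ.obj₁) (h₃ : OddZero Δ.obj₃) :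
    OddZero Δ.obj₂ := fun k f => by
  obtain ⟨g, hg⟩ := Triangle.coyoneda_exact₂ Δ hΔ f (h₃ k _)
  rw [hg, h₁ k g, zero_comp]

lemma zero {K : T} (h : IsZero K) : OddZero K := fun _ _ => h.eq_of_tgt _ _

/-- `π_odd (K⟦m⟧) = 0` for even `m`. -/
lemma shift {K : T} (h : OddZero K) (m : ℤ) : OddZero (K⟦2 * m⟧) := fun k f =>
  eq_zero_of_shift (2 * (k - m) + 1) (2 * m) (2 * k + 1) (by ring) (h (k - m)) f

/-- an odd class in `K⟦odd⟧`... : `π_even (K⟦1⟧) = 0`. -/
lemma shift_one_even {K : T} (h : OddZero K) (k : ℤ) (f : (𝟙_ T)⟦2 * k⟧ ⟶ K⟦(1 : ℤ)⟧) : f = 0 :=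
  eq_zero_of_shift (2 * (k - 1) + 1) 1 (2 * k) (by ring) (h (k - 1)) f

lemma shift_neg_one_even {K : T} (h : OddZero K) (k : ℤ) (f : (𝟙_ T)⟦2 * k⟧ ⟶ K⟦(-1 : ℤ)⟧) :
    f = 0 :=
  eq_zero_of_shift (2 * k + 1) (-1) (2 * k) (by ring) (h k) f

section Tensor

variable [SymmetricCategory T] [TensorTriangulated T]

lemma tensor_evenCell {d : ℤ} {K Z : T} (h : OddZero K) (hZ : EvenCell T d Z) :
    OddZero (K ⊗ Z) := hZ.odd_zero h

lemma tensor_cl {s : Multiset ℤ} {K Z : T} (h : OddZero K) (hZ : Cl T s Z) :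
    OddZero (K ⊗ Z) := by
  obtain ⟨d, hd⟩ := hZ.exists_evenCell
  exact hd.odd_zero h

end Tensor

end OddZero

section EvBig

variable [HasCoproducts.{0} T]

namespace EvBig

lemma conn {d : ℤ} {J : T} (h : EvBig d J) (h0 : Conn (0 : ℤ) (𝟙_ T))
    (hcomp : ∀ {I : Type} (Y : I → T) (k : ℤ) (f : (𝟙_ T)⟦k⟧ ⟶ ∐ Y),
      ∃ (s : Finset I) (g : (𝟙_ T)⟦k⟧ ⟶ ∐ (fun i : s => Y i)),
        g ≫ Sigma.desc (fun i : s => Sigma.ι Y i) = f) : Conn (2 * d) J :=
  h.1.conn h0 hcomp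

lemma mono {d d' : ℤ} (hd : d ≤ d') {J : T} (h : EvBig d' J) : EvBig d J :=
  ⟨h.1.mono (by omega), h.2⟩

section Tensor

variable [SymmetricCategory T] [TensorTriangulated T]

lemma of_evenCell {d : ℤ} {X : T} (hX : EvenCell T d X) : EvBig d X :=
  ⟨hX.bigCell (2 * d) le_rfl, fun _ hK => hX.odd_zero hK⟩

lemma of_cl {s : Multiset ℤ} {d : ℤ} {X : T} (hX : Cl T s X) (hs : ∀ k ∈ s, d ≤ k) :
    EvBig d X := of_evenCell (hX.evenCell hs)

lemma extClosed (d : ℤ) : ExtClosed (EvBig (T := T) d) where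
  zero X hX := of_evenCell (EvenCell.zero X hX)
  ext {X Y Z f g h} D hX hZ := by
    refine ⟨BigCell.ext _ D hX.1 hZ.1, fun K hK => ?_⟩
    exact OddZero.ext _ (TensorTriangulated.distinguished K _ D) (hX.2 K hK) (hZ.2 K hK)

lemma of_iso {d : ℤ} {X Y : T} (e : X ≅ Y) (h : EvBig d X) : EvBig d Y := (extClosed d).iso e h

end Tensor

end EvBig

end EvBig

end Vale.Agent.P241.BD
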