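import Vale.Agent.P241.BD.Lift
import Vale.Agent.P093.N.RealSpace

/-!
# P241, block BD3: maps from finite objects to `Y ⊗ R` come from the skeleta

* `FinD T lo hi X` : finite cell objects with cells in dimensions between `lo` and `hi`;
  `FinObj X`; closure properties; `finObj_space`;
* `compact_bij` : `Hom(A, Y ⊗ B) ⟶ Hom(A, Y ⊗ R)` is bijective for finite `A`, `Y` and all
  `2d`-skeleta `B ⟶ R` with `d` large; `compact_bij'` : the same for `B ⊗ Y ⟶ R ⊗ Y`;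
* `exists_factor`, `exists_kill` : the two consequences.
-/

open CategoryTheory MonoidalCategory Limits Pretriangulated ZeroObject
open Vale.Agent.P251.T Vale.Agent.P251.S Vale.Agent.P251.H Vale.Agent.P251.M
open Vale.Agent.P251.G Vale.Agent.P251.G.LC Vale.Agent.P251.I

universe v u

set_option linter.unusedSectionVars false

namespace Vale.Agent.P241.BD

variable {T : Type u} [Category.{v} T] [Preadditive T] [HasZeroObject T]
    [HasShift T ℤ] [∀ n : ℤ, (shiftFunctor T n).Additive] [Pretriangulated T]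
    [MonoidalCategory T]

variable (T) in
/-- Finite cell objects with cells in dimensions between `lo` and `hi`. -/
inductive FinD (lo hi : ℤ) : T → Prop
  | zero (X : T) (hX : IsZero X) : FinD lo hi X
  | sphere (k : ℤ) (h : lo ≤ k) (h' : k ≤ hi) : FinD lo hi ((𝟙_ T)⟦k⟧)
  | ext (Δ : Triangle T) (hΔ : Δ ∈ distTriang T) (h₁ : FinD lo hi Δ.obj₁)
      (h₃ : FinD lo hi Δ.obj₃) : FinD lo hi Δ.obj₂

namespace FinD

lemma mono {lo hi lo' hi' : ℤ} (h : lo' ≤ lo) (h' : hi ≤ hi') {X : T} (hX : FinD T lo hi X) :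
    FinD T lo' hi' X := by
  induction hX with
  | zero X hX => exact zero X hX
  | sphere k hk hk' => exact sphere k (h.trans hk) (hk'.trans h')
  | ext Δ hΔ _ _ ih₁ ih₃ => exact ext Δ hΔ ih₁ ih₃

lemma of_iso {lo hi : ℤ} {X Y : T} (e : X ≅ Y) (hX : FinD T lo hi X) : FinD T lo hi Y := by
  refine ext (Triangle.mk e.hom (0 : Y ⟶ (0 : T)) 0) ?_ hX (zero _ (isZero_zero T))
  rw [Triangle.distinguished_iff_of_isZero₃ _ (isZero_zero T)]
  change IsIso e.hom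
  infer_instance

lemma shift {lo hi : ℤ} {X : T} (hX : FinD T lo hi X) (m : ℤ) {lo' hi' : ℤ} (h : lo + m = lo')
    (h' : hi + m = hi') : FinD T lo' hi' (X⟦m⟧) := by
  induction hX with
  | zero X hX => exact zero _ ((shiftFunctor T m).map_isZero hX)
  | sphere k hk hk' =>
    exact of_iso ((shiftFunctorAdd' T k m (k + m) rfl).app (𝟙_ T))
      (sphere (k + m) (by omega) (by omega))
  | ext Δ hΔ _ _ ih₁ ih₃ => exact ext _ (Triangle.shift_distinguished Δ hΔ m) ih₁ ih₃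

/-- No maps to highly connected objects. -/
lemma hom_eq_zero {lo hi : ℤ} {X Z : T} (hX : FinD T lo hi X) {m : ℤ} (h : hi < m)
    (hZ : Conn m Z) (f : X ⟶ Z) : f = 0 := by
  induction hX with
  | zero X hX => exact hX.eq_of_src _ _
  | sphere k hk hk' => exact hZ k (by omega) f
  | ext Δ hΔ _ _ ih₁ ih₃ =>
    obtain ⟨g, hg⟩ := Triangle.yoneda_exact₂ Δ hΔ f (ih₁ (Δ.mor₁ ≫ f))
    rw [hg, ih₃ g, comp_zero]

lemma ext₃ {lo hi : ℤ} {X Y Z : T} {f : X ⟶ Y} {g : Y ⟶ Z} {w : Z ⟶ X⟦(1 : ℤ)⟧}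
    (D : Dist f g w) (hX : FinD T lo hi X) (hY : FinD T lo hi Y) : FinD T lo (hi + 1) Z :=
  ext _ (rot_of_distTriang _ D) (hY.mono le_rfl (by omega))
    ((hX.shift 1 rfl rfl).mono (by omega) le_rfl)

section tensor

variable [SymmetricCategory T] [TensorTriangulated T]

lemma tensor {a b c d : ℤ} {X Y : T} (hX : FinD T a b X) (hY : FinD T c d Y) :
    FinD T (a + c) (b + d) (X ⊗ Y) := by
  induction hY with
  | zero Y hY =>
    refine zero _ ?_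
    rw [IsZero.iff_id_eq_zero, ← MonoidalCategory.whiskerLeft_id,
      (IsZero.iff_id_eq_zero Y).mp hY, MonoidalPreadditive.whiskerLeft_zero]
  | sphere k hk hk' =>
    exact of_iso (tensorUnitShiftIso X k).symm
      ((hX.shift k rfl rfl).mono (by omega) (by omega))
  | ext Δ hΔ _ _ ih₁ ih₃ => exact ext _ (TensorTriangulated.distinguished X Δ hΔ) ih₁ ih₃

/-- Tensor products with finite objects lower the connectivity by a bounded amount. -/
lemma conn_tensor {lo hi : ℤ} {X Z : T} (hX : FinD T lo hi X) {m : ℤ} (hZ : Conn m Z) :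
    Conn (m + lo) (Z ⊗ X) := by
  induction hX with
  | zero X hX =>
    refine Conn.zero ?_
    rw [IsZero.iff_id_eq_zero, ← MonoidalCategory.whiskerLeft_id,
      (IsZero.iff_id_eq_zero X).mp hX, MonoidalPreadditive.whiskerLeft_zero]
  | sphere k hk hk' =>
    exact ((hZ.shift k (m + k) rfl).mono (by omega)).of_iso (tensorUnitShiftIso Z k).symm
  | ext Δ hΔ _ _ ih₁ ih₃ => exact Conn.ext _ (TensorTriangulated.distinguished Z Δ hΔ) ih₁ ih₃

end tensor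

end FinD

lemma Cl.finD {s : Multiset ℤ} {X : T} (hX : Cl T s X) {lo hi : ℤ}
    (h : ∀ k ∈ s, lo ≤ 2 * k) (h' : ∀ k ∈ s, 2 * k ≤ hi) : FinD T lo hi X := by
  induction hX with
  | zero X hX => exact FinD.zero X hX
  | sphere k => exact FinD.sphere _ (h k (by simp)) (h' k (by simp))
  | ext Δ hΔ _ _ ih₁ ih₃ =>
    exact FinD.ext Δ hΔ
      (ih₁ (fun k hk => h k (Multiset.mem_add.mpr (Or.inl hk)))
        (fun k hk => h' k (Multiset.mem_add.mpr (Or.inl hk))))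
      (ih₃ (fun k hk => h k (Multiset.mem_add.mpr (Or.inr hk)))
        (fun k hk => h' k (Multiset.mem_add.mpr (Or.inr hk))))

/-- Finite cell objects. -/
def FinObj (X : T) : Prop := ∃ lo hi : ℤ, FinD T lo hi X

lemma FinD.finObj {lo hi : ℤ} {X : T} (h : FinD T lo hi X) : FinObj X := ⟨lo, hi, h⟩

namespace FinObj

lemma of_iso {X Y : T} (e : X ≅ Y) (h : FinObj X) : FinObj Y := by
  obtain ⟨lo, hi, h⟩ := h
  exact ⟨lo, hi, h.of_iso e⟩

lemma of_isZero {X : T} (h : IsZero X) : FinObj X := ⟨0, 0, FinD.zero X h⟩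

lemma sphere (k : ℤ) : FinObj ((𝟙_ T)⟦k⟧) := ⟨k, k, FinD.sphere k le_rfl le_rfl⟩

lemma of_sphere {X : T} {k : ℤ} (e : Nonempty (X ≅ (𝟙_ T)⟦k⟧)) : FinObj X := by
  obtain ⟨e⟩ := e
  exact (sphere k).of_iso e.symm

lemma unit : FinObj (𝟙_ T) := (sphere 0).of_iso ((shiftFunctorZero T ℤ).app _)

lemma shift {X : T} (h : FinObj X) (m : ℤ) : FinObj (X⟦m⟧) := by
  obtain ⟨lo, hi, h⟩ := h
  exact ⟨_, _, h.shift m rfl rfl⟩

lemma dist₂ {X Y Z : T} {f : X ⟶ Y} {g : Y ⟶ Z} {w : Z ⟶ X⟦(1 : ℤ)⟧} (D : Dist f g w)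
    (hX : FinObj X) (hZ : FinObj Z) : FinObj Y := by
  obtain ⟨a, b, hX⟩ := hX
  obtain ⟨c, d, hZ⟩ := hZ
  exact ⟨min a c, max b d, FinD.ext _ D (hX.mono (min_le_left _ _) (le_max_left _ _))
    (hZ.mono (min_le_right _ _) (le_max_right _ _))⟩

lemma dist₃ {X Y Z : T} {f : X ⟶ Y} {g : Y ⟶ Z} {w : Z ⟶ X⟦(1 : ℤ)⟧} (D : Dist f g w)
    (hX : FinObj X) (hY : FinObj Y) : FinObj Z :=
  dist₂ (f := g) (g := w) (w := _) (rot_of_distTriang _ D) hY (hX.shift 1)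

lemma dist₁ {X Y Z : T} {f : X ⟶ Y} {g : Y ⟶ Z} {w : Z ⟶ X⟦(1 : ℤ)⟧} (D : Dist f g w)
    (hY : FinObj Y) (hZ : FinObj Z) : FinObj X :=
  dist₂ (inv_rot_of_distTriang _ D) (hZ.shift (-1)) hY

variable [SymmetricCategory T] [TensorTriangulated T]

lemma tensor {X Y : T} (hX : FinObj X) (hY : FinObj Y) : FinObj (X ⊗ Y) := by
  obtain ⟨a, b, hX⟩ := hX
  obtain ⟨c, d, hY⟩ := hY
  exact ⟨_, _, hX.tensor hY⟩

/-- suspension spectra of finite cell spaces are finite -/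
theorem space (F : SpaceFunctor T) (X : FCat) : FinObj (F.S.obj X) := by
  obtain ⟨X, hX⟩ := X
  induction hX with
  | empty =>
    exact of_isZero (F.isZero (X := ⟨LC.of Empty, FC.empty⟩) (inferInstanceAs (IsEmpty Empty)))
  | sph n => exact of_sphere ⟨sphIso F n⟩
  | @hequiv X Y hX hXY ih =>
    obtain ⟨f, g, h1, h2⟩ := hXY
    have hi : IsIso (F.S.map (FCat.hom f : (⟨X, hX⟩ : FCat) ⟶ ⟨Y, hX.hequiv ⟨f, g, h1, h2⟩⟩)) :=
      isIso_of_isHEquiv F _ ⟨g, h1, h2⟩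
    exact ih.of_iso (asIso (F.S.map
      (FCat.hom f : (⟨X, hX⟩ : FCat) ⟶ ⟨Y, hX.hequiv ⟨f, g, h1, h2⟩⟩)))
  | @ext A B i hi hA hC ihA ihC =>
    obtain ⟨h, D⟩ := exists_cofTriangle F (FCat.hom i : (⟨A, hA⟩ : FCat) ⟶ ⟨B, hA.ext hi hC⟩) hi
    exact dist₂ D ihA ihC

end FinObj

lemma Cl.finObj {s : Multiset ℤ} {X : T} (hX : Cl T s X) : FinObj X := by
  induction hX with
  | zero X hX => exact FinObj.of_isZero hX
  | sphere k => exact FinObj.sphere _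
  | ext Δ hΔ _ _ ih₁ ih₃ =>
    exact FinObj.dist₂ (f := Δ.mor₁) (g := Δ.mor₂) (w := Δ.mor₃) hΔ ih₁ ih₃

section compact

variable [SymmetricCategory T] [TensorTriangulated T] [IsTriangulated T]
  [MonoidalClosed T] [HasCoproducts.{0} T] [HasProducts.{0} T] [StableCat T]

/-- For finite `A`, `Y` the map `Hom(A, Y ⊗ B) ⟶ Hom(A, Y ⊗ R)` is bijective, if `B ⟶ R` is a
skeleton of high dimension. -/
theorem compact_bij (hc : Conn (0 : ℤ) (𝟙_ T)) {A Y R : T} (hA : FinObj A) (hY : FinObj Y) :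
    ∃ d₀ : ℕ, ∀ d, d₀ ≤ d → ∀ {s : Multiset ℤ} {B : T} {i : B ⟶ R}, IsSkel R d s i →
      Function.Bijective (fun g : A ⟶ Y ⊗ B => g ≫ (Y ◁ i)) := by
  obtain ⟨a, b, hA⟩ := hA
  obtain ⟨c, e, hY⟩ := hY
  refine ⟨(b - c).toNat, fun d hd s B i h => ?_⟩
  obtain ⟨J, q, w, D, hJ⟩ := h.cof
  have hJ' : Conn (2 * ((d : ℤ) + 1) + c) (Y ⊗ J) :=
    (hY.conn_tensor (hJ.conn' hc)).of_iso (β_ _ _)
  have DY := TensorTriangulated.distinguished Y _ D
  refine ⟨fun g g' hg => ?_, fun f => ?_⟩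
  · rw [← sub_eq_zero]
    obtain ⟨x, hx⟩ := Triangle.coyoneda_exact₂ _ (inv_rot_of_distTriang _ DY) (g - g') (by
      change (g - g') ≫ (Y ◁ i) = 0
      rw [Preadditive.sub_comp, sub_eq_zero]
      exact hg)
    have h0 : x = 0 := hA.hom_eq_zero (m := 2 * ((d : ℤ) + 1) + c - 1) (by omega)
      (hJ'.shift (-1) _ (by ring)) x
    rw [hx, h0]
    exact zero_comp
  · obtain ⟨g, hg⟩ := Triangle.coyoneda_exact₂ _ DY f (hA.hom_eq_zero (by omega) hJ' _)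
    exact ⟨g, hg.symm⟩

theorem compact_bij' (hc : Conn (0 : ℤ) (𝟙_ T)) {A Y R : T} (hA : FinObj A) (hY : FinObj Y) :
    ∃ d₀ : ℕ, ∀ d, d₀ ≤ d → ∀ {s : Multiset ℤ} {B : T} {i : B ⟶ R}, IsSkel R d s i →
      Function.Bijective (fun g : A ⟶ B ⊗ Y => g ≫ (i ▷ Y)) := by
  obtain ⟨d₀, h₀⟩ := compact_bij (R := R) hc hA hY
  refine ⟨d₀, fun d hd s B i h => ⟨fun g g' hg => ?_, fun f => ?_⟩⟩
  · have h1 := (h₀ d hd h).1 (a₁ := g ≫ (β_ B Y).hom) (a₂ := g' ≫ (β_ B Y).hom) (by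
      change (g ≫ (β_ B Y).hom) ≫ (Y ◁ i) = (g' ≫ (β_ B Y).hom) ≫ (Y ◁ i)
      simp only [Category.assoc, ← BraidedCategory.braiding_naturality_left]
      simp only [← Category.assoc]
      exact congrArg (· ≫ (β_ R Y).hom) hg)
    exact (cancel_mono _).mp h1
  · obtain ⟨g, hg⟩ := (h₀ d hd h).2 (f ≫ (β_ R Y).hom)
    refine ⟨g ≫ (β_ B Y).inv, ?_⟩
    change (g ≫ (β_ B Y).inv) ≫ (i ▷ Y) = f
    rw [← cancel_mono (β_ R Y).hom, Category.assoc, Category.assoc,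
      BraidedCategory.braiding_naturality_left, Iso.inv_hom_id_assoc]
    exact hg

/-- Maps from finite objects to `Y ⊗ R` factor through the skeleta. -/
theorem exists_factor (hc : Conn (0 : ℤ) (𝟙_ T)) {A Y R : T} (hA : FinObj A) (hY : FinObj Y)
    (f : A ⟶ Y ⊗ R) : ∃ d₀ : ℕ, ∀ d, d₀ ≤ d → ∀ {s : Multiset ℤ} {B : T} {i : B ⟶ R},
      IsSkel R d s i → ∃ g : A ⟶ Y ⊗ B, g ≫ (Y ◁ i) = f := by
  obtain ⟨d₀, h⟩ := compact_bij (R := R) hc hA hY
  exact ⟨d₀, fun d hd s B i hi => (h d hd hi).2 f⟩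

/-- Maps from finite objects to a stage which are zero in `Y ⊗ R` are zero at a later stage. -/
theorem exists_kill (hc : Conn (0 : ℤ) (𝟙_ T)) {A Y R C : T} (hA : FinObj A) (hY : FinObj Y)
    (k : C ⟶ R) (f : A ⟶ Y ⊗ C) (hf : f ≫ (Y ◁ k) = 0) :
    ∃ d₀ : ℕ, ∀ d, d₀ ≤ d → ∀ {s : Multiset ℤ} {B : T} {i : B ⟶ R}, IsSkel R d s i →
      ∀ j : C ⟶ B, j ≫ i = k → f ≫ (Y ◁ j) = 0 := by
  obtain ⟨d₀, h⟩ := compact_bij (R := R) hc hA hY
  refine ⟨d₀, fun d hd s B i hi j hj => (h d hd hi).1 ?_⟩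
  change (f ≫ (Y ◁ j)) ≫ (Y ◁ i) = 0 ≫ (Y ◁ i)
  rw [Category.assoc, ← MonoidalCategory.whiskerLeft_comp, hj, hf, zero_comp]

end compact

end Vale.Agent.P241.BD
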