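import Vale.Agent.P241.BD.Cells
import Vale.Agent.P251.I.M2
import Vale.Agent.P251.M.QOut
import Vale.Agent.P251.Q.InjFG
import Mathlib.GroupTheory.FiniteAbelian.Basic

/-!
# P241, block BD (skeleta of `MU`): the number of cells

`IsSkel.count_eq`, `IsSkel.card_eq` : a `2d`-skeleton of `MU` has exactly `#{partitions of m}` cells
of dimension `2m` (`m ≤ d`), `pc d` cells in all.

Proof: count the homotopy of `(R ⊗ S/3) ⊗ X` for `X = B` and for `X = R`.
-/

open CategoryTheory MonoidalCategory Limits Pretriangulated ZeroObject MonObj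
open Vale.Agent.P251.T Vale.Agent.P251.S Vale.Agent.P251.H Vale.Agent.P251.M Vale.Agent.P251.I
open Vale.Agent.P251.F

universe v u

set_option linter.unusedSectionVars false

namespace Vale.Agent.P241.BD

/-! ### Combinatorics -/

theorem degU_eq (a : ℕ →₀ ℕ) :
    Cob.degU a = (((Finsupp.toMultiset a).map (· + 1)).sum : ℕ) := by
  induction a using Finsupp.induction_linear with
  | zero => simp [Cob.degU]
  | add f g hf hg =>
    rw [map_add, Multiset.map_add, Multiset.sum_add, Nat.cast_add, ← hf, ← hg, Cob.degU,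
      Finsupp.sum_add_index' (by simp) (by intro a b c; push_cast; ring)]
    rfl
  | single i n =>
    rw [Cob.degU, Finsupp.sum_single_index (by simp), Finsupp.toMultiset_single,
      Multiset.map_nsmul, Multiset.sum_nsmul]
    simp

/-- the monomials of weight `m` are the partitions of `m` -/
noncomputable def monoEquiv (m : ℕ) : {a : ℕ →₀ ℕ // Cob.degU a = m} ≃ Nat.Partition m where
  toFun a :=
    { parts := (Finsupp.toMultiset a.1).map (· + 1)
      parts_pos := fun {i} hi => by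
        obtain ⟨j, -, rfl⟩ := Multiset.mem_map.1 hi
        omega
      parts_sum := by
        have h1 := degU_eq a.1
        rw [a.2] at h1
        exact_mod_cast h1.symm }
  invFun q := ⟨Multiset.toFinsupp (q.parts.map (· - 1)), by
    rw [degU_eq, Multiset.toFinsupp_toMultiset, Multiset.map_map]
    have h : q.parts.map ((· + 1) ∘ (· - 1)) = q.parts := by
      conv_rhs => rw [← Multiset.map_id q.parts]
      refine Multiset.map_congr rfl fun i hi => ?_
      have := q.parts_pos hi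
      simp only [Function.comp_apply, id_eq]
      omega
    rw [h, q.parts_sum]⟩
  left_inv a := by
    apply Subtype.ext
    simp only [Multiset.map_map]
    have h : (Finsupp.toMultiset a.1).map ((· - 1) ∘ (· + 1)) = Finsupp.toMultiset a.1 := by
      conv_rhs => rw [← Multiset.map_id (Finsupp.toMultiset a.1)]
      refine Multiset.map_congr rfl fun i _ => ?_
      simp
    rw [h, Finsupp.toMultiset_toFinsupp]
  right_inv q := by
    apply Nat.Partition.ext
    simp only [Multiset.toFinsupp_toMultiset, Multiset.map_map]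
    conv_rhs => rw [← Multiset.map_id q.parts]
    refine Multiset.map_congr rfl fun i hi => ?_
    have := q.parts_pos hi
    simp only [Function.comp_apply, id_eq]
    omega

instance (m : ℕ) : Finite {a : ℕ →₀ ℕ // Cob.degU a = m} := Finite.of_equiv _ (monoEquiv m).symm

/-! ### Cardinalities of groups of maps -/

variable {T : Type u} [Category.{v} T] [Preadditive T] [HasZeroObject T]
    [HasShift T ℤ] [∀ n : ℤ, (shiftFunctor T n).Additive] [Pretriangulated T]

section Card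

theorem card_hom_congr {A A' Y Y' : T} (a : A ≅ A') (y : Y ≅ Y') :
    Nat.card (A ⟶ Y) = Nat.card (A' ⟶ Y') :=
  Nat.card_congr (Iso.homCongr a y)

theorem card_hom_shift (A Y : T) (n : ℤ) :
    Nat.card (A⟦n⟧ ⟶ Y⟦n⟧) = Nat.card (A ⟶ Y) :=
  Nat.card_congr ((Functor.FullyFaithful.ofFullyFaithful (shiftFunctor T n)).homEquiv).symm

/-- cardinalities in a short exact sequence of `Hom` groups -/
theorem card_of_exact {A X Y Z : T} (f : X ⟶ Y) (g : Y ⟶ Z)
    (hinj : ∀ x : A ⟶ X, x ≫ f = 0 → x = 0) (hfg : f ≫ g = 0)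
    (hex : ∀ y : A ⟶ Y, y ≫ g = 0 → ∃ x : A ⟶ X, x ≫ f = y)
    (hsurj : ∀ z : A ⟶ Z, ∃ y : A ⟶ Y, y ≫ g = z) :
    Nat.card (A ⟶ Y) = Nat.card (A ⟶ X) * Nat.card (A ⟶ Z) := by
  let F : (A ⟶ X) →+ (A ⟶ Y) := Preadditive.rightComp A f
  let G : (A ⟶ Y) →+ (A ⟶ Z) := Preadditive.rightComp A g
  have hG : Function.Surjective G := hsurj
  have h1 := AddSubgroup.card_eq_card_quotient_mul_card_addSubgroup G.ker
  have h2 : Nat.card ((A ⟶ Y) ⧸ G.ker) = Nat.card (A ⟶ Z) :=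
    Nat.card_congr (QuotientAddGroup.quotientKerEquivOfSurjective G hG).toEquiv
  have h3 : Nat.card G.ker = Nat.card (A ⟶ X) := by
    refine (Nat.card_congr (Equiv.ofBijective (fun x : A ⟶ X => (⟨x ≫ f, ?_⟩ : G.ker)) ?_)).symm
    · rw [AddMonoidHom.mem_ker]
      change (x ≫ f) ≫ g = 0
      rw [Category.assoc, hfg, comp_zero]
    · constructor
      · intro x y hxy
        have h := congrArg Subtype.val hxy
        simp only at h
        rw [← sub_eq_zero]
        apply hinj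
        rw [Preadditive.sub_comp, h, sub_self]
      · rintro ⟨y, hy⟩
        obtain ⟨x, hx⟩ := hex y hy
        exact ⟨x, Subtype.ext hx⟩
  rw [h1, h2, h3, mul_comm]

variable [IsTriangulated T] [MonoidalCategory T] [SymmetricCategory T] [TensorTriangulated T]
    [MonoidalClosed T] [HasCoproducts.{0} T] [HasProducts.{0} T] [StableCat T]

/-- maps from a compact object to a coproduct with finitely many relevant summands -/
theorem card_hom_coprod {A Z : T} {J : Type} (Y : J → T)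
    (hA : ∀ f : A ⟶ ∐ Y, ∃ (s : Finset J) (g : ∀ j, A ⟶ Y j), f = ∑ j ∈ s, g j ≫ Sigma.ι Y j)
    (f : ∀ j, Y j ⟶ Z) (hf : IsIso (Sigma.desc f)) (t : Finset J)
    (ht : ∀ j, j ∉ t → ∀ g : A ⟶ Y j, g = 0) :
    Nat.card (A ⟶ Z) = ∏ j ∈ t, Nat.card (A ⟶ Y j) := by
  classical
  rw [card_hom_congr (Iso.refl A) (asIso (Sigma.desc f)).symm, ← Finset.prod_coe_sort,
    ← Nat.card_pi]
  refine (Nat.card_congr (Equiv.ofBijective
    (fun g : ∀ j : t, A ⟶ Y j => ∑ j : t, g j ≫ Sigma.ι Y j) ⟨?_, ?_⟩)).symm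
  · intro g g' hgg
    have h1 : ∑ j : t, (g j - g' j) ≫ Sigma.ι Y (j : J) = 0 := by
      simp only [Preadditive.sub_comp, Finset.sum_sub_distrib]
      rw [sub_eq_zero]
      exact hgg
    let k : ∀ j, A ⟶ Y j := fun j => if h : j ∈ t then g ⟨j, h⟩ - g' ⟨j, h⟩ else 0
    have h2 : ∑ j ∈ t, k j ≫ Sigma.ι Y j = 0 := by
      rw [← h1, ← Finset.sum_coe_sort t]
      refine Finset.sum_congr rfl fun j _ => ?_
      simp only [k, dif_pos j.2]
    funext j
    have h3 := sum_ι_eq_zero Y t k h2 j j.2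
    simp only [k, dif_pos j.2] at h3
    exact sub_eq_zero.1 h3
  · intro x
    obtain ⟨s, g, rfl⟩ := hA x
    refine ⟨fun j => if (j : J) ∈ s then g j else 0, ?_⟩
    simp only
    rw [Finset.sum_coe_sort t (fun j => (if j ∈ s then g j else 0) ≫ Sigma.ι Y j)]
    have h1 : ∀ j, (if j ∈ s then g j else 0) ≫ Sigma.ι Y j =
        if j ∈ s then g j ≫ Sigma.ι Y j else 0 := by
      intro j; split_ifs <;> simp
    simp only [h1]
    rw [← Finset.sum_filter, ← Finset.sum_filter_add_sum_filter_not s (· ∈ t)]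
    have h2 : ∑ j ∈ s.filter (· ∉ t), g j ≫ Sigma.ι Y j = 0 := by
      refine Finset.sum_eq_zero fun j hj => ?_
      rw [ht j (Finset.mem_filter.1 hj).2 (g j), zero_comp]
    rw [h2, add_zero]
    refine Finset.sum_congr ?_ fun _ _ => rfl
    ext j
    simp [and_comm]

end Card

section Cl

variable [MonoidalCategory T] [SymmetricCategory T] [TensorTriangulated T]

/-- the order of `π_{2j} K` -/
noncomputable def rho (K : T) (j : ℤ) : ℕ := Nat.card ((𝟙_ T)⟦2 * j⟧ ⟶ K)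

theorem card_sphere (K : T) (m k : ℤ) {S : T} (e : S ≅ (𝟙_ T)⟦2 * k⟧) :
    Nat.card ((𝟙_ T)⟦2 * m⟧ ⟶ K ⊗ S) = rho K (m - k) := by
  have e1 : (𝟙_ T)⟦2 * m⟧ ≅ ((𝟙_ T)⟦2 * (m - k)⟧)⟦2 * k⟧ :=
    (shiftFunctorAdd' T (2 * (m - k)) (2 * k) (2 * m) (by ring)).app (𝟙_ T)
  rw [card_hom_congr e1 (whiskerLeftIso K e ≪≫ tensorUnitShiftIso K (2 * k)), card_hom_shift]
  rfl

theorem card_hom_isZero {A Z : T} (hZ : IsZero Z) : Nat.card (A ⟶ Z) = 1 := by
  have : Subsingleton (A ⟶ Z) := ⟨fun f g => hZ.eq_of_tgt f g⟩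
  exact Nat.card_unique

theorem isZero_tensor {K Z : T} (hZ : IsZero Z) : IsZero (K ⊗ Z) := by
  rw [IsZero.iff_id_eq_zero, ← MonoidalCategory.whiskerLeft_id,
    (IsZero.iff_id_eq_zero Z).mp hZ, MonoidalPreadditive.whiskerLeft_zero]

/-- the homotopy of `K ⊗ X` for a finite even complex `X` and `π_odd K = 0` -/
theorem Cl.card_eq {K : T} (hK : OddZero K) {s : Multiset ℤ} {X : T} (h : Cl T s X) (m : ℤ) :
    Nat.card ((𝟙_ T)⟦2 * m⟧ ⟶ K ⊗ X) = (s.map fun k => rho K (m - k)).prod := by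
  induction h with
  | zero X hX => simpa using card_hom_isZero (isZero_tensor hX)
  | sphere k => simpa using card_sphere K m k (Iso.refl _)
  | ext Δ hΔ h₁ h₃ ih₁ ih₃ =>
    obtain ⟨a, ha⟩ := h₁.exists_evenCell
    obtain ⟨b, hb⟩ := h₃.exists_evenCell
    rw [Multiset.map_add, Multiset.prod_add, ← ih₁, ← ih₃]
    refine card_of_exact (K ◁ Δ.mor₁) (K ◁ Δ.mor₂)
      (fun x hx => EvenCell.eq_zero_of_comp Δ hΔ hb hK m x hx) ?_
      (fun y hy => ?_) (fun z => EvenCell.exists_lift Δ hΔ ha hK m z)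
    · rw [← MonoidalCategory.whiskerLeft_comp, comp_distTriang_mor_zero₁₂ Δ hΔ,
        MonoidalPreadditive.whiskerLeft_zero]
    · obtain ⟨x, hx⟩ := EvenCell.exists_of_comp_eq_zero Δ hΔ y hy
      exact ⟨x, hx.symm⟩

/-- a map with highly connected cofibre does not change the low homotopy -/
theorem card_eq_of_conn {K X Y Z : T} {f : X ⟶ Y} {g : Y ⟶ Z} {h : Z ⟶ X⟦(1 : ℤ)⟧}
    (D : Dist f g h) {m : ℤ} (hZ : Conn (m + 2) (K ⊗ Z)) :
    Nat.card ((𝟙_ T)⟦m⟧ ⟶ K ⊗ X) = Nat.card ((𝟙_ T)⟦m⟧ ⟶ K ⊗ Y) := by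
  have D' := TensorTriangulated.distinguished K _ D
  have h0 : Nat.card ((𝟙_ T)⟦m⟧ ⟶ K ⊗ Z) = 1 := by
    have : Subsingleton ((𝟙_ T)⟦m⟧ ⟶ K ⊗ Z) :=
      ⟨fun a b => by rw [hZ m (by omega) a, hZ m (by omega) b]⟩
    exact Nat.card_unique
  have key := card_of_exact (A := (𝟙_ T)⟦m⟧) (K ◁ f) (K ◁ g) (fun x hx => ?_) ?_
    (fun y hy => ?_) (fun z => ⟨0, ?_⟩)
  · rw [key, h0, _root_.mul_one]
  · obtain ⟨w, hw⟩ := Triangle.coyoneda_exact₂ _ (inv_rot_of_distTriang _ D') x hx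
    have h1 : w = 0 := hZ.shift (-1) (m + 1) (by ring) m (by omega) w
    rw [hw, h1]
    exact zero_comp
  · exact comp_distTriang_mor_zero₁₂ _ D'
  · obtain ⟨x, hx⟩ := Triangle.coyoneda_exact₂ _ D' y hy
    exact ⟨x, hx.symm⟩
  · rw [zero_comp, hZ m (by omega) z]

end Cl

section MU

variable [IsTriangulated T] [MonoidalCategory T] [SymmetricCategory T] [TensorTriangulated T]
    [MonoidalClosed T] [HasCoproducts.{0} T] [HasProducts.{0} T] [StableCat T] (D : MUData T)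

theorem bigCell_am (n : ℕ) : BigCell T 0 (Am D.R n) := by
  obtain ⟨F, ι, ⟨δ, hδ⟩, hF⟩ := D.cells n
  exact BigCell.cone _ hδ (BigCell.coprod _ fun j => (hF j).bigCell 0 (by norm_num))
    (BigCell.coprod _ fun j => (hF j).bigCell 0 (by norm_num))

theorem bigCell_unit : BigCell T 0 (𝟙_ T) :=
  BigCell.of_iso ((shiftFunctorZero T ℤ).app (𝟙_ T)) (BigCell.sphere 0 le_rfl)

include D in
theorem conn_of_bigCell {n : ℤ} {X : T} (h : BigCell T n X) : Conn n X :=
  h.conn D.conn_unit (fun Y k f => StableCat.compact k Y f)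

instance fact_three : Fact (Nat.Prime 3) := ⟨Nat.prime_three⟩

variable {C : T} {i₀ : 𝟙_ T ⟶ C} {δ₀ : C ⟶ (𝟙_ T)⟦(1 : ℤ)⟧}
  (hC : Triangle.mk (((3 : ℕ) : ℤ) • 𝟙 (𝟙_ T)) i₀ δ₀ ∈ distTriang T)

include hC

theorem bigCell_K : BigCell T 0 (Am D.R 1 ⊗ C) :=
  (bigCell_am D 1).tensor (BigCell.cone _ hC bigCell_unit bigCell_unit) 0 (by ring)

theorem oddZero_K : OddZero (Am D.R 1 ⊗ C) := fun k f => D.odd 3 (by norm_num) 0 C i₀ δ₀ hC k f

theorem rho_neg {j : ℤ} (hj : j < 0) : rho (Am D.R 1 ⊗ C) j = 1 := by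
  have h := conn_of_bigCell D (bigCell_K D hC)
  have : Subsingleton ((𝟙_ T)⟦2 * j⟧ ⟶ Am D.R 1 ⊗ C) :=
    ⟨fun a b => by rw [h (2 * j) (by omega) a, h (2 * j) (by omega) b]⟩
  exact Nat.card_unique

omit [IsTriangulated T] [MonoidalClosed T] [HasProducts.{0} T] [StableCat T] in
theorem three_smul {A : T} (f : A ⟶ Am D.R 1) :
    (3 : ℕ) • (f ≫ (ρ_ (Am D.R 1)).inv ≫ (Am D.R 1 ◁ i₀)) = 0 := by
  have h1 : (((3 : ℕ) : ℤ) • 𝟙 (𝟙_ T)) ≫ i₀ = 0 := comp_distTriang_mor_zero₁₂ _ hC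
  have h2 : (3 : ℕ) • i₀ = 0 := by
    rw [Preadditive.zsmul_comp, Category.id_comp, natCast_zsmul] at h1
    exact h1
  rw [← Preadditive.comp_nsmul, ← Preadditive.comp_nsmul]
  have h3 : (3 : ℕ) • (Am D.R 1 ◁ i₀) = 0 := by
    have h4 : (3 : ℕ) • (Am D.R 1 ◁ i₀) = Am D.R 1 ◁ ((3 : ℕ) • i₀) := by
      simp only [succ_nsmul, zero_nsmul, zero_add, MonoidalPreadditive.whiskerLeft_add]
    rw [h4, h2, MonoidalPreadditive.whiskerLeft_zero]
  rw [h3, comp_zero, comp_zero]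

theorem finite_wtd (w : ℤ) : {d : (ℕ × ℕ) →₀ ℕ | (Vale.Agent.P251.Q.wtd d : ℤ) = w}.Finite := by
  refine Set.Finite.subset (((Finset.range (w.toNat + 1)) ×ˢ (Finset.range (w.toNat + 1))).finsupp
      (fun _ => Finset.range (w.toNat + 1))).finite_toSet ?_
  intro d hd
  have hd' : (Vale.Agent.P251.Q.wtd d : ℤ) = w := hd
  have hle : ∀ n ∈ d.support, d n * (n.1 + n.2 + 1) ≤ w.toNat := by
    intro n hn
    have h1 : d n * (n.1 + n.2 + 1) ≤ Vale.Agent.P251.Q.wtd d :=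
      Finset.single_le_sum (f := fun n => d n * (n.1 + n.2 + 1)) (fun _ _ => Nat.zero_le _) hn
    omega
  rw [Finset.mem_coe, Finset.mem_finsupp_iff]
  constructor
  · intro n hn
    have h1 := hle n hn
    have h2 : 1 ≤ d n := Nat.one_le_iff_ne_zero.2 (Finsupp.mem_support_iff.1 hn)
    rw [Finset.mem_product, Finset.mem_range, Finset.mem_range]
    constructor <;> nlinarith
  · intro n _
    rw [Finset.mem_range]
    by_cases hn : n ∈ d.support
    · have h1 := hle n hn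
      nlinarith
    · rw [Finsupp.notMem_support_iff.1 hn]; omega

theorem finite_S (j : ℤ) : Finite ((stdEven T).S j ⟶ Am D.R 1 ⊗ C) := by
  classical
  let W : Set ((ℕ × ℕ) →₀ ℕ) := {d | (Vale.Agent.P251.Q.wtd d : ℤ) = j}
  have hW : W.Finite := finite_wtd hC j
  have hex : ∀ d : W, ∃ a : (stdEven T).S j ⟶ Am D.R 1,
      D.ev 0 (MvPolynomial.C (Laz.mk (MvPolynomial.monomial d.1 1))) =
        HRing.of (stdEven T) (Am D.R 1) j a := by
    intro d
    refine D.ev_wt 0 j _ ?_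
    have := Vale.Agent.P251.Q.isWt_mk_monomial d.1 1
    rwa [d.2] at this
  choose a ha using hex
  have : Finite W := hW.to_subtype
  have hfg : AddGroup.FG ((stdEven T).S j ⟶ Am D.R 1 ⊗ C) := by
    rw [AddGroup.fg_iff]
    refine ⟨Set.range fun d : W => a d ≫ (ρ_ (Am D.R 1)).inv ≫ (Am D.R 1 ◁ i₀), ?_,
      Set.finite_range _⟩
    rw [eq_top_iff]
    intro f _
    obtain ⟨z, x, hz, hzx, rfl⟩ := D.surj 3 (by norm_num) 0 C i₀ δ₀ hC j f
    rw [MvPolynomial.eq_C_of_isEmpty z] at hz hzx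
    obtain ⟨P, hP, hPz⟩ := Vale.Agent.P251.Q.exists_mk_of_isWt hz
    have h1 : x = ∑ d ∈ P.support.attach, MvPolynomial.coeff d.1 P • a ⟨d.1, hP d.1 d.2⟩ := by
      apply DirectSum.of_injective (β := (stdEven T).Gr (Am D.R 1)) j
      have h2 : HRing.of (stdEven T) (Am D.R 1) j
          (∑ d ∈ P.support.attach, MvPolynomial.coeff d.1 P • a ⟨d.1, hP d.1 d.2⟩) =
          ∑ d ∈ P.support.attach, MvPolynomial.coeff d.1 P •
            HRing.of (stdEven T) (Am D.R 1) j (a ⟨d.1, hP d.1 d.2⟩) := by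
        change DirectSum.of _ _ _ = _
        rw [map_sum]
        refine Finset.sum_congr rfl fun d _ => ?_
        rw [map_zsmul]
      refine Eq.trans ?_ h2.symm
      change HRing.of (stdEven T) (Am D.R 1) j x = _
      rw [← hzx, ← hPz]
      conv_lhs => rw [P.as_sum, ← Finset.sum_attach, map_sum, map_sum, map_sum]
      refine Finset.sum_congr rfl fun d _ => ?_
      rw [← ha ⟨d.1, hP d.1 d.2⟩]
      rw [← map_zsmul, ← map_zsmul, ← map_zsmul]
      congr 3
      rw [MvPolynomial.smul_monomial, smul_eq_mul, _root_.mul_one]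
    rw [h1, Preadditive.sum_comp]
    refine sum_mem fun d _ => ?_
    rw [Preadditive.zsmul_comp]
    exact zsmul_mem (AddSubgroup.subset_closure (Set.mem_range_self _)) _
  refine AddCommGroup.finite_of_fg_isAddTorsion _ fun f => ?_
  obtain ⟨z, x, hz, hzx, rfl⟩ := D.surj 3 (by norm_num) 0 C i₀ δ₀ hC j f
  rw [isOfFinAddOrder_iff_nsmul_eq_zero]
  exact ⟨3, by norm_num, three_smul D hC x⟩

theorem rho_finite (j : ℤ) : Finite ((𝟙_ T)⟦2 * j⟧ ⟶ Am D.R 1 ⊗ C) := by
  have := finite_S D hC j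
  exact Finite.of_equiv _ (Iso.homCongr (stdSph j) (Iso.refl (Am D.R 1 ⊗ C)))

theorem rho_zero : 1 < rho (Am D.R 1 ⊗ C) 0 := by
  have := finite_S D hC 0
  have h0 : rho (Am D.R 1 ⊗ C) 0 = Nat.card ((stdEven T).S 0 ⟶ Am D.R 1 ⊗ C) :=
    card_hom_congr (stdSph 0).symm (Iso.refl _)
  rw [h0]
  obtain ⟨a, ha⟩ := D.ev_wt 0 0 1 Cob.isWt_one
  have hne : a ≫ (ρ_ (Am D.R 1)).inv ≫ (Am D.R 1 ◁ i₀) ≠ 0 := by
    intro h
    obtain ⟨y, -, hy⟩ := D.ker 3 (by norm_num) 0 C i₀ δ₀ hC 0 1 Cob.isWt_one a ha h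
    let φ : Cob Laz 0 →+* ℤ := (MvPolynomial.eval₂Hom (RingHom.id ℤ) (fun _ : ℕ => 0)).comp
      (Laz.toB.comp (MvPolynomial.isEmptyRingEquiv Laz (Fin 0 × ℕ)).toRingHom)
    have h2 := congrArg φ hy
    rw [map_one, map_zsmul, smul_eq_mul] at h2
    omega
  have : Nontrivial ((stdEven T).S 0 ⟶ Am D.R 1 ⊗ C) := ⟨_, _, hne⟩
  exact Finite.one_lt_card

/-- the homotopy of `(R ⊗ S/3) ⊗ R` -/
theorem card_R {F : SpaceFunctor T} {e : F.S.obj CCF ≅ (stdEven T).L} (U : MUUniv e D) (m : ℤ)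
    (t : Finset (ℕ →₀ ℕ)) (ht : ∀ a, Cob.degU a ≤ m → a ∈ t) :
    Nat.card ((𝟙_ T)⟦2 * m⟧ ⟶ (Am D.R 1 ⊗ C) ⊗ D.R) =
      ∏ a ∈ t, rho (Am D.R 1 ⊗ C) (m - Cob.degU a) := by
  obtain ⟨b, hb, -⟩ := U.basis
  have h1 := b.isIsoY C
  have e1 : ∀ j, Nat.card ((𝟙_ T)⟦2 * m⟧ ⟶ (Am D.R 1 ⊗ (stdEven T).S (b.k j)) ⊗ C) =
      rho (Am D.R 1 ⊗ C) (m - Cob.degU j) := by
    intro j
    rw [card_hom_congr (Iso.refl _) (exch (Am D.R 1) C ((stdEven T).S (b.k j))).symm,
      card_sphere _ m (b.k j) (stdSph (b.k j)), hb]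
  rw [card_hom_congr (Iso.refl _) (exch (Am D.R 1) C D.R),
    card_hom_coprod _ (fun f => compact_sum _ ⟨_, ⟨Iso.refl _⟩⟩ f) _ h1 t]
  · exact Finset.prod_congr rfl fun j _ => e1 j
  · intro j hj g
    have h2 := e1 j
    rw [rho_neg D hC (by
      by_contra hlt
      exact hj (ht j (by omega)))] at h2
    have := (Nat.card_eq_one_iff_unique.1 h2).1
    exact Subsingleton.elim _ _

end MU

/-! ### The count -/

theorem degU_nonneg (a : ℕ →₀ ℕ) : 0 ≤ Cob.degU a := by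
  rw [degU_eq]; positivity

theorem count_unique (r : ℤ → ℕ) (hneg : ∀ j < 0, r j = 1) (h0 : 1 < r 0) (hpos : ∀ j, 0 < r j)
    (c b : ℕ → ℕ) (d : ℕ)
    (h : ∀ m ≤ d, ∏ j ∈ Finset.range (d + 1), r ((m : ℤ) - (j : ℤ)) ^ c j =
      ∏ j ∈ Finset.range (d + 1), r ((m : ℤ) - (j : ℤ)) ^ b j) : ∀ m ≤ d, c m = b m := by
  have key : ∀ (c : ℕ → ℕ) (m : ℕ), m ≤ d → ∏ j ∈ Finset.range (d + 1), r ((m : ℤ) - (j : ℤ)) ^ c j =
      (∏ j ∈ Finset.range m, r ((m : ℤ) - (j : ℤ)) ^ c j) * r 0 ^ c m := by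
    intro c m hm
    have h1 : ∏ j ∈ Finset.range (m + 1), r ((m : ℤ) - (j : ℤ)) ^ c j =
        ∏ j ∈ Finset.range (d + 1), r ((m : ℤ) - (j : ℤ)) ^ c j := by
      refine Finset.prod_subset (by intro x; simp; omega) fun x _ hx => ?_
      rw [Finset.mem_range, not_lt] at hx
      rw [hneg _ (by omega), one_pow]
    rw [← h1, Finset.prod_range_succ, sub_self]
  intro m
  induction m using Nat.strong_induction_on with
  | _ m ih =>
    intro hm
    have h1 := h m hm
    rw [key c m hm, key b m hm] at h1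
    have h2 : ∏ j ∈ Finset.range m, r ((m : ℤ) - (j : ℤ)) ^ c j =
        ∏ j ∈ Finset.range m, r ((m : ℤ) - (j : ℤ)) ^ b j :=
      Finset.prod_congr rfl fun j hj => by
        rw [ih j (Finset.mem_range.1 hj) (by have := Finset.mem_range.1 hj; omega)]
    rw [h2] at h1
    exact Nat.pow_right_injective h0 (Nat.eq_of_mul_eq_mul_left
      (Finset.prod_pos fun j _ => pow_pos (hpos _) _) h1)

theorem finite_degU_le (d : ℕ) : {a : ℕ →₀ ℕ | Cob.degU a ≤ d}.Finite := by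
  have h : {a : ℕ →₀ ℕ | Cob.degU a ≤ d} ⊆
      ⋃ m ∈ Finset.range (d + 1), {a : ℕ →₀ ℕ | Cob.degU a = (m : ℤ)} := by
    intro a ha
    have h1 := degU_nonneg a
    have h2 : Cob.degU a ≤ d := ha
    rw [Set.mem_iUnion₂]
    refine ⟨(Cob.degU a).toNat, by rw [Finset.mem_range]; omega, ?_⟩
    change Cob.degU a = _
    omega
  refine Set.Finite.subset (Set.Finite.biUnion (Finset.finite_toSet _) fun m _ => ?_) h
  exact Set.finite_coe_iff.1 (inferInstanceAs (Finite {a : ℕ →₀ ℕ // Cob.degU a = (m : ℤ)}))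

/-- products over the monomials of weight `≤ d` -/
theorem prod_degU (d : ℕ) (f : ℤ → ℕ) :
    ∏ a ∈ (finite_degU_le d).toFinset, f (Cob.degU a) =
      ∏ j ∈ Finset.range (d + 1), f j ^ Fintype.card (Nat.Partition j) := by
  classical
  rw [← Finset.prod_fiberwise_of_maps_to (s := (finite_degU_le d).toFinset)
    (t := Finset.range (d + 1)) (g := fun a => (Cob.degU a).toNat) (fun a ha => by
      have h1 : Cob.degU a ≤ d := by simpa using ha
      have h2 := degU_nonneg a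
      rw [Finset.mem_range]; omega)]
  refine Finset.prod_congr rfl fun j hj => ?_
  have hj' := Finset.mem_range.1 hj
  rw [Finset.prod_congr rfl (g := fun _ => f j) (fun a ha => by
    have h1 := (Finset.mem_filter.1 ha).2
    have h2 := degU_nonneg a
    congr 1; omega), Finset.prod_const]
  congr 1
  rw [← Nat.card_eq_fintype_card, ← Nat.card_congr (monoEquiv j), ← Fintype.card_coe,
    ← Nat.card_eq_fintype_card]
  refine Nat.card_congr (Equiv.subtypeEquivRight fun a => ?_)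
  have h2 := degU_nonneg a
  simp only [Finset.mem_filter, Set.Finite.mem_toFinset, Set.mem_ofPred_eq]
  omega

theorem prod_cells (s : Multiset ℤ) (d : ℕ) (h0 : ∀ k ∈ s, 0 ≤ k) (h1 : ∀ k ∈ s, k ≤ d)
    (f : ℤ → ℕ) : (s.map f).prod = ∏ j ∈ Finset.range (d + 1), f j ^ s.count (j : ℤ) := by
  classical
  rw [Finset.prod_multiset_map_count]
  have h2 : ∏ j ∈ Finset.range (d + 1), f j ^ s.count (j : ℤ) =
      ∏ k ∈ (Finset.range (d + 1)).map Nat.castEmbedding, f k ^ s.count k := by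
    rw [Finset.prod_map]; rfl
  rw [h2]
  refine Finset.prod_subset (fun k hk => ?_) fun k _ hk => ?_
  · rw [Multiset.mem_toFinset] at hk
    rw [Finset.mem_map]
    refine ⟨k.toNat, ?_, ?_⟩
    · have := h0 k hk
      have := h1 k hk
      rw [Finset.mem_range]; omega
    · have := h0 k hk
      simpa using this
  · rw [Multiset.mem_toFinset] at hk
    rw [Multiset.count_eq_zero_of_notMem hk, pow_zero]

section Final

variable [IsTriangulated T] [MonoidalCategory T] [SymmetricCategory T] [TensorTriangulated T]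
    [MonoidalClosed T] [HasCoproducts.{0} T] [HasProducts.{0} T] [StableCat T] {D : MUData T}
    {F : SpaceFunctor T} {e : F.S.obj CCF ≅ (stdEven T).L}

/-- A `2d`-skeleton of `MU` has `#{partitions of m}` cells of dimension `2m`, `m ≤ d`. -/
theorem IsSkel.count_eq (U : MUUniv e D) {d : ℕ} {s : Multiset ℤ} {B : T} {i : B ⟶ D.R}
    (h : IsSkel D.R d s i) (m : ℕ) (hm : m ≤ d) :
    s.count (m : ℤ) = Fintype.card (Nat.Partition m) := by
  obtain ⟨C, i₀, δ₀, hC⟩ := distinguished_cocone_triangle (((3 : ℕ) : ℤ) • 𝟙 (𝟙_ T))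
  have hfin := rho_finite D hC
  refine count_unique (rho (Am D.R 1 ⊗ C)) (fun j hj => rho_neg D hC hj) (rho_zero D hC)
    (fun j => @Nat.card_pos _ _ (hfin j)) (fun j => s.count (j : ℤ))
    (fun j => Fintype.card (Nat.Partition j)) d (fun m hm => ?_) m hm
  rw [← prod_cells s d h.nonneg h.le (fun k => rho (Am D.R 1 ⊗ C) (m - k)),
    ← h.cells.card_eq (oddZero_K D hC) m,
    ← prod_degU d (fun k => rho (Am D.R 1 ⊗ C) (m - k)),
    ← card_R D hC U m _ (fun a ha => by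
      rw [Set.Finite.mem_toFinset]
      change Cob.degU a ≤ d
      omega)]
  obtain ⟨Z, g, w, hD, hZ⟩ := h.cof
  refine card_eq_of_conn hD ?_
  have h1 : BigCell T (2 * (d + 1)) ((Am D.R 1 ⊗ C) ⊗ Z) :=
    (bigCell_K D hC).tensor hZ.1 _ (by ring)
  exact (conn_of_bigCell D h1).mono (by omega)

/-- A `2d`-skeleton of `MU` has `pc d` cells. -/
theorem IsSkel.card_eq (U : MUUniv e D) {d : ℕ} {s : Multiset ℤ} {B : T} {i : B ⟶ D.R}
    (h : IsSkel D.R d s i) : s.card = pc d := by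
  have h1 := prod_cells s d h.nonneg h.le (fun _ => 2)
  rw [Finset.prod_congr rfl (fun j hj => by
    rw [h.count_eq U j (by have := Finset.mem_range.1 hj; omega)]),
    Finset.prod_pow_eq_pow_sum, Multiset.map_const', Multiset.prod_replicate] at h1
  exact Nat.pow_right_injective le_rfl h1

end Final

end Vale.Agent.P241.BD
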