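import Vale.Agent.P251.M.CofIn

/-!
# P241, block BD (skeleta of `MU`): definitions

* `Cl s X` : `X` is a finite even complex with cells `𝟙⟦2k⟧`, `k ∈ s` (a multiset of integers);
* `OddZero K` : `π_odd K = 0`;
* `EvBig d J` : `J` has only cells of dimension `≥ 2d` and `π_odd (K ⊗ J) = 0` whenever
  `π_odd K = 0`;
* `IsSkel R d s i` : `i : B ⟶ R` is a `2d`-skeleton with cells `s`;
* `SkelAll R` : `R` has `2d`-skeleta with at most `pc d` cells, for all `d`.
-/

open CategoryTheory MonoidalCategory Limits Pretriangulated ZeroObject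
open Vale.Agent.P251.T Vale.Agent.P251.S Vale.Agent.P251.H Vale.Agent.P251.M

universe v u

set_option linter.unusedSectionVars false

namespace Vale.Agent.P241.BD

variable {T : Type u} [Category.{v} T] [Preadditive T] [HasZeroObject T]
    [HasShift T ℤ] [∀ n : ℤ, (shiftFunctor T n).Additive] [Pretriangulated T]
    [MonoidalCategory T]

variable (T) in
/-- `Cl s X`: `X` is built by extensions from the spheres `𝟙⟦2k⟧`, `k ∈ s`. -/
inductive Cl : Multiset ℤ → T → Prop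
  | zero (X : T) (hX : IsZero X) : Cl 0 X
  | sphere (k : ℤ) : Cl {k} ((𝟙_ T)⟦2 * k⟧)
  | ext (Δ : Triangle T) (hΔ : Δ ∈ distTriang T) {s t : Multiset ℤ} (h₁ : Cl s Δ.obj₁)
      (h₃ : Cl t Δ.obj₃) : Cl (s + t) Δ.obj₂

/-- `π_odd K = 0` -/
def OddZero (K : T) : Prop := ∀ (k : ℤ) (f : (𝟙_ T)⟦2 * k + 1⟧ ⟶ K), f = 0

/-- only cells of dimension `≥ 2d`, and even for every even theory -/
def EvBig [HasCoproducts.{0} T] (d : ℤ) (J : T) : Prop :=
  BigCell T (2 * d) J ∧ ∀ K : T, OddZero K → OddZero (K ⊗ J)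

/-- `i : B ⟶ R` is a `2d`-skeleton of `R`, with cells `𝟙⟦2k⟧`, `k ∈ s`. -/
structure IsSkel [HasCoproducts.{0} T] (R : T) (d : ℕ) (s : Multiset ℤ) {B : T} (i : B ⟶ R) :
    Prop where
  cells : Cl T s B
  nonneg : ∀ k ∈ s, 0 ≤ k
  le : ∀ k ∈ s, k ≤ d
  cof : CofIn (EvBig (T := T) (d + 1)) i

/-- the number of partitions of the numbers `≤ d` (= number of monomials of weight `≤ d` in
`b_1, b_2, …`) -/
def pc (d : ℕ) : ℕ := ∑ k ∈ Finset.range (d + 1), Fintype.card (Nat.Partition k)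

/-- `R` (`= MU`) has `2d`-skeleta with at most `pc d` cells, for all `d`. -/
def SkelAll [HasCoproducts.{0} T] (R : T) : Prop :=
  ∀ d : ℕ, ∃ (s : Multiset ℤ) (B : T) (i : B ⟶ R), IsSkel R d s i ∧ s.card ≤ pc d

end Vale.Agent.P241.BD
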