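import Vale.Agent.P241.BD.Cells
import Vale.Agent.P251.T.Axioms
import Mathlib.CategoryTheory.Monoidal.Mon

/-!
# P241, block BD: lifting to skeleta

`h : IsSkel R d s i`, `i : B ⟶ R`.

* `IsSkel.exists_cof` : the cofibre;
* `IsSkel.existsUnique_lift` : maps `X ⟶ R` with `Cl T t X`, cells `≤ d`, lift uniquely to `B`;
* `IsSkel.exists_unit`, `IsSkel.exists_trans`, `IsSkel.exists_mul`, `IsSkel.exists_act` :
  unit, transition maps, products, multiplication by a class;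
* `IsSkel.tensor_inj` : `π_even (K ⊗ B) ⟶ π_even (K ⊗ R)` is injective if `π_odd K = 0`.
-/

open CategoryTheory MonoidalCategory Limits Pretriangulated ZeroObject MonObj
open Vale.Agent.P251.T Vale.Agent.P251.S Vale.Agent.P251.H Vale.Agent.P251.M

universe v u

set_option linter.unusedSectionVars false

namespace Vale.Agent.P241.BD

variable {T : Type u} [Category.{v} T] [Preadditive T] [HasZeroObject T]
    [HasShift T ℤ] [∀ n : ℤ, (shiftFunctor T n).Additive] [Pretriangulated T] [IsTriangulated T]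
    [MonoidalCategory T] [SymmetricCategory T] [TensorTriangulated T] [MonoidalClosed T]
    [HasCoproducts.{0} T] [HasProducts.{0} T] [StableCat T]

lemma EvBig.conn' {d : ℤ} {J : T} (h : EvBig d J) (hc : Conn (0 : ℤ) (𝟙_ T)) : Conn (2 * d) J :=
  h.conn hc fun Y k f => StableCat.compact k Y f

/-- Cells of a tensor product. -/
lemma Cl.exists_tensor {s t : Multiset ℤ} {X Y : T} (hX : Cl T s X) (hY : Cl T t Y) {c d : ℤ}
    (hs : ∀ k ∈ s, k ≤ c) (ht : ∀ k ∈ t, k ≤ d) :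
    ∃ r : Multiset ℤ, Cl T r (X ⊗ Y) ∧ ∀ k ∈ r, k ≤ c + d := by
  refine ⟨_, hX.tensor hY, fun k hk => ?_⟩
  obtain ⟨a, ha, hk⟩ := Multiset.mem_bind.mp hk
  obtain ⟨b, hb, rfl⟩ := Multiset.mem_map.mp hk
  exact add_le_add (hs b hb) (ht a ha)

namespace IsSkel

variable {R : T} {d : ℕ} {s : Multiset ℤ} {B : T} {i : B ⟶ R}

lemma exists_cof (h : IsSkel R d s i) : ∃ (J : T) (q : R ⟶ J) (w : J ⟶ B⟦(1 : ℤ)⟧),
    Dist i q w ∧ EvBig (T := T) (d + 1) J := h.cof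

/-- Maps from complexes with cells of dimension `≤ 2d` lift to the `2d`-skeleton. -/
theorem exists_lift (h : IsSkel R d s i) (hc : Conn (0 : ℤ) (𝟙_ T)) {t : Multiset ℤ} {X : T}
    (hX : Cl T t X) (ht : ∀ k ∈ t, k ≤ d) (f : X ⟶ R) : ∃ g : X ⟶ B, g ≫ i = f := by
  obtain ⟨J, q, w, D, hJ⟩ := h.cof
  exact hX.exists_lift (m := 2 * ((d : ℤ) + 1)) (fun k hk => by have := ht k hk; omega) D
    (hJ.conn' hc) f

/-- The lift is unique. -/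
theorem hom_ext (h : IsSkel R d s i) (hc : Conn (0 : ℤ) (𝟙_ T)) {t : Multiset ℤ} {X : T}
    (hX : Cl T t X) (ht : ∀ k ∈ t, k ≤ d) {g g' : X ⟶ B} (e : g ≫ i = g' ≫ i) : g = g' := by
  obtain ⟨J, q, w, D, hJ⟩ := h.cof
  exact hX.lift_unique (m := 2 * ((d : ℤ) + 1)) (fun k hk => by have := ht k hk; omega) D
    (hJ.conn' hc) e

theorem existsUnique_lift (h : IsSkel R d s i) (hc : Conn (0 : ℤ) (𝟙_ T)) {t : Multiset ℤ}
    {X : T} (hX : Cl T t X) (ht : ∀ k ∈ t, k ≤ d) (f : X ⟶ R) : ∃! g : X ⟶ B, g ≫ i = f := by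
  obtain ⟨g, hg⟩ := h.exists_lift hc hX ht f
  exact ⟨g, hg, fun g' hg' => h.hom_ext hc hX ht (hg'.trans hg.symm)⟩

/-- The transition maps of the skeleta. -/
theorem exists_trans (h : IsSkel R d s i) {e : ℕ} {t : Multiset ℤ} {C : T} {j : C ⟶ R}
    (h' : IsSkel R e t j) (hc : Conn (0 : ℤ) (𝟙_ T)) (hde : d ≤ e) :
    ∃ g : B ⟶ C, g ≫ j = i :=
  h'.exists_lift hc h.cells (fun k hk => (h.le k hk).trans (by exact_mod_cast hde)) i

/-- The unit. -/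
theorem exists_unit [MonObj R] (h : IsSkel R d s i) (hc : Conn (0 : ℤ) (𝟙_ T)) :
    ∃ g : 𝟙_ T ⟶ B, g ≫ i = η[R] :=
  h.exists_lift hc Cl.unit (fun k hk => by
    rw [Multiset.mem_singleton] at hk
    subst hk
    exact Int.natCast_nonneg d) _

/-- Multiplication by a class `x : X ⟶ R`, `X` with cells `≤ c`. -/
theorem exists_act [MonObj R] (h : IsSkel R d s i) {e : ℕ} {t : Multiset ℤ} {C : T} {j : C ⟶ R}
    (h' : IsSkel R e t j) (hc : Conn (0 : ℤ) (𝟙_ T)) {r : Multiset ℤ} {X : T} (hX : Cl T r X)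
    {c : ℤ} (hr : ∀ k ∈ r, k ≤ c) (hcd : c + d ≤ e) (x : X ⟶ R) :
    ∃ g : X ⊗ B ⟶ C, g ≫ j = (x ⊗ₘ i) ≫ μ[R] := by
  obtain ⟨q, hq, hq'⟩ := hX.exists_tensor h.cells hr h.le
  exact h'.exists_lift hc hq (fun k hk => (hq' k hk).trans hcd) _

theorem act_ext (h : IsSkel R d s i) {e : ℕ} {t : Multiset ℤ} {C : T} {j : C ⟶ R}
    (h' : IsSkel R e t j) (hc : Conn (0 : ℤ) (𝟙_ T)) {r : Multiset ℤ} {X : T} (hX : Cl T r X)
    {c : ℤ} (hr : ∀ k ∈ r, k ≤ c) (hcd : c + d ≤ e) {g g' : X ⊗ B ⟶ C} (hg : g ≫ j = g' ≫ j) :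
    g = g' := by
  obtain ⟨q, hq, hq'⟩ := hX.exists_tensor h.cells hr h.le
  exact h'.hom_ext hc hq (fun k hk => (hq' k hk).trans hcd) hg

/-- Multiplication by a homotopy class `x : 𝟙⟦n⟧ ⟶ R`, `n = 2c`. -/
theorem exists_smul [MonObj R] (h : IsSkel R d s i) {e : ℕ} {t : Multiset ℤ} {C : T} {j : C ⟶ R}
    (h' : IsSkel R e t j) (hc : Conn (0 : ℤ) (𝟙_ T)) {n c : ℤ} (hn : 2 * c = n)
    (hcd : c + d ≤ e) (x : (𝟙_ T)⟦n⟧ ⟶ R) :
    ∃ g : (𝟙_ T)⟦n⟧ ⊗ B ⟶ C, g ≫ j = (x ⊗ₘ i) ≫ μ[R] :=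
  h.exists_act h' hc (Cl.sphere' n c hn) (c := c) (by simp) hcd x

/-- The products `B c ⊗ B d ⟶ B e`, `c + d ≤ e`. -/
theorem exists_mul [MonObj R] (h : IsSkel R d s i) {c : ℕ} {t : Multiset ℤ} {C : T} {j : C ⟶ R}
    (h' : IsSkel R c t j) {e : ℕ} {r : Multiset ℤ} {E : T} {k : E ⟶ R} (h'' : IsSkel R e r k)
    (hc : Conn (0 : ℤ) (𝟙_ T)) (hcd : d + c ≤ e) :
    ∃ g : B ⊗ C ⟶ E, g ≫ k = (i ⊗ₘ j) ≫ μ[R] :=
  h'.exists_act h'' hc h.cells (c := d) h.le (by exact_mod_cast hcd) i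

/-- `π_odd (K ⊗ B) = 0` -/
theorem oddZero (h : IsSkel R d s i) {K : T} (hK : OddZero K) : OddZero (K ⊗ B) :=
  hK.tensor_cl h.cells

/-- `π_even (K ⊗ B) ⟶ π_even (K ⊗ R)` is injective. -/
theorem tensor_inj (h : IsSkel R d s i) {K : T} (hK : OddZero K) (k : ℤ)
    (f : (𝟙_ T)⟦2 * k⟧ ⟶ K ⊗ B) (hf : f ≫ (K ◁ i) = 0) : f = 0 := by
  obtain ⟨J, q, w, D, hJ⟩ := h.cof
  obtain ⟨g, hg⟩ := Triangle.coyoneda_exact₂ _
    (inv_rot_of_distTriang _ (TensorTriangulated.distinguished K _ D)) f hf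
  rw [hg, (hJ.2 K hK).shift_neg_one_even k g]
  exact zero_comp

/-- `π_even (K ⊗ R) ⟶ π_even (K ⊗ J)` is surjective. -/
theorem tensor_surj (h : IsSkel R d s i) {K : T} (hK : OddZero K) {J : T} {q : R ⟶ J}
    {w : J ⟶ B⟦(1 : ℤ)⟧} (D : Dist i q w) (k : ℤ) (f : (𝟙_ T)⟦2 * k⟧ ⟶ K ⊗ J) :
    ∃ g : (𝟙_ T)⟦2 * k⟧ ⟶ K ⊗ R, g ≫ (K ◁ q) = f := by
  obtain ⟨g, hg⟩ := Triangle.coyoneda_exact₃ _ (TensorTriangulated.distinguished K _ D) f
    (((h.oddZero hK).shift_one_even k) _)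
  exact ⟨g, hg.symm⟩

end IsSkel

/-- Two skeleta of the same dimension are isomorphic over `R`. -/
theorem IsSkel.exists_iso {R : T} {d : ℕ} {s t : Multiset ℤ} {B C : T} {i : B ⟶ R} {j : C ⟶ R}
    (h : IsSkel R d s i) (h' : IsSkel R d t j) (hc : Conn (0 : ℤ) (𝟙_ T)) :
    ∃ f : B ≅ C, f.hom ≫ j = i := by
  obtain ⟨f, hf⟩ := h.exists_trans h' hc le_rfl
  obtain ⟨g, hg⟩ := h'.exists_trans h hc le_rfl
  refine ⟨⟨f, g, h.hom_ext hc h.cells h.le ?_, h'.hom_ext hc h'.cells h'.le ?_⟩, hf⟩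
  · rw [Category.assoc, hg, hf, Category.id_comp]
  · rw [Category.assoc, hf, hg, Category.id_comp]

end Vale.Agent.P241.BD
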