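import Vale.Agent.P241.BD.Cells
import Vale.Agent.P251.M.MUEvenSeq
import Vale.Agent.P251.M.MU

/-!
# P241, block BD: the stages of the sequence of `MU`

* `cofIn_map_MU` : the cofibre of `MU n ⟶ MU m` (`n ≤ m`) is a finite even complex with cells in
  dimensions `≥ 2(n+1)`;
* `evBig_ι` : the cofibre of `ι n : MU n ⟶ R` is in `EvBig (n+1)`.
-/

open CategoryTheory MonoidalCategory Limits Pretriangulated ZeroObject Functor.LaxMonoidal
open Vale.Agent.P251.G Vale.Agent.P251.G.LC Vale.Agent.P251.I Vale.Agent.P251.T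
  Vale.Agent.P251.H Vale.Agent.P251.M

universe v u

set_option linter.unusedSectionVars false
set_option linter.style.haveILetI false

noncomputable section

namespace Vale.Agent.P241.BD

/-! ### telescopes of finite even complexes -/

section Tel

variable {T : Type u} [Category.{v} T] [Preadditive T] [HasZeroObject T]
    [HasShift T ℤ] [∀ n : ℤ, (shiftFunctor T n).Additive] [Pretriangulated T] [IsTriangulated T]
    [MonoidalCategory T] [SymmetricCategory T] [TensorTriangulated T] [MonoidalClosed T]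
    [HasCoproducts.{0} T] [HasProducts.{0} T] [StableCat T]

/-- the functor `k ↦ n + k` -/
def tailF (n : ℕ) : ℕ ⥤ ℕ :=
  Monotone.functor (f := fun k => n + k) (fun _ _ h => Nat.add_le_add_left h n)

/-- The tail of a telescope. -/
theorem isTel_tail {F : ℕ ⥤ T} {L : T} {ι : ∀ n, F.obj n ⟶ L} (h : IsTel F L ι) (n : ℕ) :
    IsTel (tailF n ⋙ F) L (fun k => ι (n + k)) := by
  refine IsTel.of_pi (fun k => ?_) (fun k m w hw => ?_) (fun k w => ?_)
  · exact h.comp (show n + k ≤ n + (k + 1) by omega)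
  · obtain ⟨m', hm', h2⟩ := h.exists_comp_eq_zero (n := n + m) (isCpt_sph k) w hw
    refine ⟨m', by omega, ?_⟩
    have h3 : F.map (homOfLE (show n + m ≤ n + m' by omega)) =
        F.map (homOfLE hm') ≫ F.map (homOfLE (show m' ≤ n + m' by omega)) := by
      rw [← F.map_comp]; rfl
    have h4 : ∀ w' : Vale.Agent.P251.S.Sph T k ⟶ F.obj (n + m), w' ≫ F.map (homOfLE hm') = 0 →
        w' ≫ F.map (homOfLE (show n + m ≤ n + m' by omega)) = 0 := by
      intro w' hw'
      rw [h3, ← Category.assoc, hw', zero_comp]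
    exact h4 w h2
  · obtain ⟨m, w', hw'⟩ := h.exists_factor' (isCpt_sph k) w
    refine ⟨m, w' ≫ F.map (homOfLE (show m ≤ n + m by omega)), ?_⟩
    have h5 := h.comp (show m ≤ n + m by omega)
    have h6 : (w' ≫ F.map (homOfLE (show m ≤ n + m by omega))) ≫ ι (n + m) = w := by
      rw [← hw', ← h5]
      exact Category.assoc _ _ _
    exact h6

lemma compactObj_sphere (k : ℤ) : CompactObj ((𝟙_ T)⟦k⟧) :=
  CompactObj.of_factor fun Y f => StableCat.compact k Y f

/-- `π_odd (K ⊗ L) = 0` for telescopes of even complexes. -/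
theorem oddZero_tel {F : ℕ ⥤ T} {L : T} {ι : ∀ n, F.obj n ⟶ L} (h : IsTel F L ι)
    (hF : ∀ n, ∃ d : ℤ, EvenCell T d (F.obj n)) {K : T} (hK : OddZero K) : OddZero (K ⊗ L) := by
  intro k w
  obtain ⟨n, w', hw'⟩ := h.whiskerLeft_factor K (isCpt_sph (2 * k + 1)) w
  obtain ⟨d, hd⟩ := hF n
  rw [← hw', hd.odd_zero hK k w', zero_comp]

/-- The cofibres of the maps from the stages of a telescope. -/
theorem evBig_of_tel {F : ℕ ⥤ T} {L : T} {ι : ∀ n, F.obj n ⟶ L} (h : IsTel F L ι) {d : ℤ} (n : ℕ)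
    (hF : ∀ n, ∃ d : ℤ, EvenCell T d (F.obj n))
    (hmap : ∀ m (hm : n ≤ m), CofIn (EvenCell T d) (F.map (homOfLE hm))) :
    CofIn (EvBig d) (ι n) := by
  have hW : CompactObj (F.obj n) := by
    obtain ⟨d, hd⟩ := hF n
    exact hd.compact compactObj_sphere
  have h1 : CofIn (BigCell T (2 * d)) (ι n) := by
    refine cofIn_unit_of_tel (bigCell_extClosed (2 * d)) (fun X hX => BigCell.coprod X hX)
      (fun X hX => (hX.shift 1 (2 * d + 1) rfl).mono (by omega)) hW
      ((isTel_iff _ _ _).mp (isTel_tail h n))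
      (fun k => F.map (homOfLE (Nat.le_add_right n k))) (fun k => ?_) (ι n) (fun k => ?_)
      (fun k => (hmap _ _).mono fun X hX => hX.bigCell (2 * d) le_rfl)
    · change F.map _ ≫ F.map _ = F.map _
      rw [← F.map_comp]
      rfl
    · exact h.comp (Nat.le_add_right n k)
  obtain ⟨J, q, w, D, hJ⟩ := h1
  refine ⟨J, q, w, D, hJ, fun K hK => ?_⟩
  intro k f
  have DK := TensorTriangulated.distinguished K _ D
  -- the boundary vanishes
  have h2 : ∀ g : (𝟙_ T)⟦2 * k⟧ ⟶ K ⊗ F.obj n, g ≫ (K ◁ ι n) = 0 → g = 0 := by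
    intro g hg
    obtain ⟨m, hm, h3⟩ := h.whiskerLeft_eq_zero K (isCpt_sph (2 * k)) g hg
    obtain ⟨Z, a, b, D', hZ⟩ := hmap m hm
    exact EvenCell.eq_zero_of_comp _ D' hZ hK k g h3
  obtain ⟨e⟩ : Nonempty (((𝟙_ T)⟦2 * k⟧)⟦(1 : ℤ)⟧ ≅ (𝟙_ T)⟦2 * k + 1⟧) :=
    ⟨((shiftFunctorAdd' T (2 * k) 1 (2 * k + 1) rfl).app (𝟙_ T)).symm⟩
  set δ : K ⊗ J ⟶ (K ⊗ F.obj n)⟦(1 : ℤ)⟧ := (Triangle.mk (K ◁ ι n) (K ◁ q)
    ((K ◁ w) ≫ (K ◁ (TensorTriangulated.e (F.obj n)).inv) ≫
        (α_ K (F.obj n) ((𝟙_ T)⟦(1 : ℤ)⟧)).inv ≫ (TensorTriangulated.e (K ⊗ F.obj n)).hom)).mor₃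
    with hδ
  have h4 : f ≫ δ = 0 := by
    obtain ⟨g, hg⟩ := (shiftFunctor T (1 : ℤ)).map_surjective (e.hom ≫ f ≫ δ)
    have h5 : δ ≫ (K ◁ ι n)⟦(1 : ℤ)⟧' = 0 := comp_distTriang_mor_zero₃₁ _ DK
    have h6 : g = 0 := by
      apply h2
      apply (shiftFunctor T (1 : ℤ)).map_injective
      rw [Functor.map_comp, hg, Category.assoc, Category.assoc, h5, comp_zero, comp_zero,
        Functor.map_zero]
    rw [h6, Functor.map_zero] at hg
    rw [← cancel_epi e.hom, ← hg, comp_zero]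
  obtain ⟨g, hg⟩ := Triangle.coyoneda_exact₃ _ DK f h4
  rw [hg, oddZero_tel h hF hK k g]
  exact zero_comp

end Tel

/-! ### the transition maps -/

section Trans

variable {T : Type u} [Category.{v} T] [MonoidalCategory T] [SymmetricCategory T]
  (R : ThomSys T)

open ThomSys CommSys in
/-- `isSus_MU` with the explicit degree -/
theorem isSus_MU' (n : ℕ) :
    ∃ (a : R.MU.E.obj n ≅ R.E.S (degUZ (dg (n + 1))).1 ⊗
        (R.E.S ((1 : ℕ) : ℤ) ⊗ R.t.X (n, n + n)))
      (b : R.MU.E.obj (n + 1) ≅ R.E.S (degUZ (dg (n + 1))).1 ⊗ R.t.X (n + 1, n + 1 + (n + 1))),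
      R.MU.E.map (homOfLE (Nat.le_succ n)) ≫ b.hom =
        a.hom ≫ (R.E.S (degUZ (dg (n + 1))).1 ◁ R.fT n) := by
  -- degrees
  have hc : degZ 1 + degUZ (dg n) = degZ 1 + degUZ (dg n) := rfl
  have hb : degU 1 + (degZ 1 + degUZ (dg n)) = degUZ (dg (n + 1)) := by
    have : dg (n + 1) = dg 1 + dg n := by ext <;> simp [add_comm]
    rw [this, map_add, ← add_assoc]
    rfl
  have hd : degUZ (dg 1) + degUZ (dg n) = degUZ (dg (n + 1)) := by
    rw [← map_add, ← map_add, add_comm 1 n]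
  have e1 : R.MU.E.map (homOfLE (Nat.le_succ n)) = R.uz.tr (dg 1) hd :=
    seq_map R.uz dg (Nat.le_succ n) 1 (add_comm 1 n) hd
  have e2 : R.uz.tr (dg 1) hd = R.P.act (R.zP.e 1) hc ≫ R.P.act (R.uP.e 1) hb := by
    rw [R.P.act_act (R.zP.e 1) (R.uP.e 1) hc hb rfl hd]
    rfl
  let i : R.E.S (degUZ (dg n)).1 ≅ R.E.S (degZ 1 + degUZ (dg n)).1 :=
    (λ_ (R.E.S (degUZ (dg n)).1)).symm ≪≫
      R.E.mu 0 (degUZ (dg n)).1 (degZ 1 + degUZ (dg n)).1 rfl
  let sI := susIso (R.kap 1) (R.E.mu (-((1 : ℕ) : ℤ)) (degZ 1 + degUZ (dg n)).1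
          (degUZ (dg (n + 1))).1 (congrArg Prod.fst hb)) (R.t.X (degUZ (dg n)).2)
  have e3 : R.P.act (R.zP.e 1) hc ≫ R.P.act (R.uP.e 1) hb =
      (whiskerRightIso i (R.t.X (degUZ (dg n)).2) ≪≫ sI).hom ≫
        (R.E.S (degUZ (dg (n + 1))).1 ◁ ((R.E.S ((1 : ℕ) : ℤ) ◁ R.t.act (R.z.e 1) rfl) ≫
          (R.σ.app 1 ▷ _) ≫ R.t.mul (congrArg Prod.snd hb))) := by
    refine Eq.trans ?_ (comp_aux i.hom (R.t.act (R.z.e 1) (congrArg Prod.snd hc)) (R.kap 1)
      (R.E.mu (-((1 : ℕ) : ℤ)) (degZ 1 + degUZ (dg n)).1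
          (degUZ (dg (n + 1))).1 (congrArg Prod.fst hb)) ((R.σ.app 1 ▷ _) ≫
            R.t.mul (congrArg Prod.snd hb)))
    exact congrArg₂ (fun a b => a ≫ b) (R.act_zP 1 hc) (R.act_uP 1 hb)
  refine ⟨whiskerRightIso i (R.t.X (degUZ (dg n)).2) ≪≫ sI, Iso.refl _, ?_⟩
  have e4 := e1.trans (e2.trans e3)
  exact (congrArg (fun z => z ≫ 𝟙 (R.P.X (degUZ (dg (n + 1))))) e4).trans
    (Category.comp_id (obj := T) _)

end Trans

section Stage

variable {T : Type u} [Category.{v} T] [Preadditive T] [HasZeroObject T]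
    [HasShift T ℤ] [∀ n : ℤ, (shiftFunctor T n).Additive] [Pretriangulated T] [IsTriangulated T]
    [MonoidalCategory T] [SymmetricCategory T] [TensorTriangulated T]

section mul

variable (F : SpaceFunctor T) {n k : ℕ} {I J : Type} [Fintype I] [Fintype J]
  [DecidableEq I] [DecidableEq J]

/-- the direct sum with a line: even cells of dimension `≥ 4 (n + 1)` -/
theorem cofIn_sum_unit (d : ℤ) (hd : d ≤ 2 * (n + 1)) :
    CofIn (EvenCell T d) (TO.sum F.S (I := I) (J := Unit) (n := n) (m := 1) rfl) := by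
  have h1 : CofIn (EvenCell T d) (F.S.map (FCat.hom (X := ThF n I ⊗ ThF 1 Unit)
      (Y := ThF (n + 1) (I ⊕ Unit)) (Th.sum rfl))) := by
    refine relCell_evenCell F d (D := Cell.evens (4 * (n + 1))) ?_ _ (Cell.relCell_sum_unit n I)
    rintro a ⟨ha, hb⟩
    obtain ⟨c, hc⟩ := ha
    exact ⟨c, by omega, by omega⟩
  exact CofIn.iso_comp (evenCell_extClosed d) (Functor.Monoidal.μIso F.S (ThF n I) (ThF 1 Unit)) h1

theorem cofIn_mul_unit (h' : Fintype.card I + Fintype.card Unit ≤ Fintype.card J) (d : ℤ)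
    (hd : d ≤ 2 * (n + 1)) (hd' : d ≤ Fintype.card I + 2) :
    CofIn (EvenCell T d) (TO.mul F.S (I := I) (J := Unit) (K := J) (n := n) (m := 1) rfl h') := by
  have h1 := cofIn_sum_unit F (n := n) (I := I) d hd
  have h2 := TO.cofIn_j F (I := I ⊕ Unit) (J := J) (n := n + 1)
    (by rw [Fintype.card_sum]; exact h') d (by
      rw [Fintype.card_sum, Fintype.card_unit]; push_cast; omega)
  exact h1.comp (evenCell_extClosed d) h2

theorem cofIn_unit_mul (h' : Fintype.card Unit + Fintype.card I ≤ Fintype.card J) (d : ℤ)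
    (hd : d ≤ 2 * (n + 1)) (hd' : d ≤ Fintype.card I + 2) :
    CofIn (EvenCell T d) (TO.mul F.S (I := Unit) (J := I) (K := J) (Nat.add_comm 1 n) h') := by
  rw [← TO.mul_comm F.S (I := Unit) (J := I) (K := J) (Nat.add_comm 1 n) rfl h' (by omega)]
  exact CofIn.iso_comp (evenCell_extClosed d) (β_ _ _) (cofIn_mul_unit F _ d hd hd')

end mul

variable (F : SpaceFunctor T) (E : EvenSpheres T) (e : F.S.obj CCF ≅ E.L)
variable (sph : ∀ n : ℤ, Nonempty (E.S n ≅ (𝟙_ T)⟦2 * n⟧))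

theorem cofIn_stabN (n : ℕ) : CofIn (EvenCell T (2 * (n + 1))) (F.S.map (stabN n)) := by
  have h' : Fintype.card Unit + Fintype.card (Fin (n + n)) ≤
      Fintype.card (Fin (n + 1 + (n + 1))) := by
    simp
    omega
  have h1 := map_stabF F.S n (stabU n) (stabU_isom n) h'
  have h2 := cofIn_unit_mul F (I := Fin (n + n)) (J := Fin (n + 1 + (n + 1))) (n := n) h'
    (2 * (n + 1)) le_rfl (by simp; omega)
  have i1 : IsIso (F.S.map (FCat.hom (X := CCF) (Y := ThF 1 Unit) lineTh)) := by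
    have : IsIso (FCat.hom (X := CCF) (Y := ThF 1 Unit) lineTh).hom := isIso_lineTh
    exact TO.isIso_map_of_isIso F.S _
  have h3 := CofIn.iso_comp (evenCell_extClosed (T := T) (2 * ((n : ℤ) + 1)))
    (whiskerRightIso (asIso (F.S.map (FCat.hom (X := CCF) (Y := ThF 1 Unit) lineTh)))
      (TO F.S n (Fin (n + n)))) h2
  have h4 : F.S.map (stabN n) =
      (Functor.Monoidal.μIso F.S CCF (ThF n (Fin (n + n)))).inv ≫
        (whiskerRightIso (asIso (F.S.map (FCat.hom (X := CCF) (Y := ThF 1 Unit) lineTh)))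
      (TO F.S n (Fin (n + n)))).hom ≫ TO.mul F.S (Nat.add_comm 1 n) h' := by
    rw [Iso.eq_inv_comp]
    exact h1
  rw [h4]
  exact CofIn.iso_comp (evenCell_extClosed _)
    (Functor.Monoidal.μIso F.S CCF (ThF n (Fin (n + n)))).symm h3

theorem degUZ_fst (n : ℕ) : (ThomSys.degUZ (ThomSys.dg n)).1 = -(n : ℤ) := by
  simp [ThomSys.degUZ, ThomSys.degU, ThomSys.degZ, ThomSys.dg]

include sph in
theorem cofIn_map_succ (n : ℕ) : CofIn (EvenCell T (n + 1))
    ((thomSys F E e).MU.E.map (homOfLE (Nat.le_succ n))) := by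
  obtain ⟨a, b, hab⟩ := isSus_MU' (thomSys F E e) n
  have h1 : CofIn (EvenCell T (2 * ((n : ℤ) + 1))) ((thomSys F E e).fT n) := by
    rw [fT_thomSys]
    exact CofIn.iso_comp (evenCell_extClosed _) (stabIso F E e n) (cofIn_stabN F n)
  have h2 : CofIn (EvenCell T ((n : ℤ) + 1))
      (E.S (ThomSys.degUZ (ThomSys.dg (n + 1))).1 ◁ (thomSys F E e).fT n) := by
    refine h1.whiskerLeft _ fun X hX => ?_
    obtain ⟨i⟩ := sph (ThomSys.degUZ (ThomSys.dg (n + 1))).1
    have h3 : EvenCell T (ThomSys.degUZ (ThomSys.dg (n + 1))).1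
        (E.S (ThomSys.degUZ (ThomSys.dg (n + 1))).1) :=
      EvenCell.of_iso i.symm (EvenCell.sphere _ le_rfl)
    exact h3.tensor hX _ (by rw [degUZ_fst]; push_cast; ring)
  have h4 : (thomSys F E e).MU.E.map (homOfLE (Nat.le_succ n)) =
      (a.hom ≫ ((thomSys F E e).E.S (ThomSys.degUZ (ThomSys.dg (n + 1))).1 ◁
        (thomSys F E e).fT n)) ≫ b.inv := (Iso.eq_comp_inv b).mpr hab
  rw [h4]
  exact CofIn.comp_iso (evenCell_extClosed _) b.symm
    (CofIn.iso_comp (evenCell_extClosed _) a h2)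

include sph in
/-- The cofibres of the transition maps. -/
theorem cofIn_map_MU {n m : ℕ} (h : n ≤ m) : CofIn (EvenCell T (n + 1))
    ((thomSys F E e).MU.E.map (homOfLE h)) := by
  induction m, h using Nat.le_induction with
  | base =>
    have : (thomSys F E e).MU.E.map (homOfLE (le_refl n)) = 𝟙 _ :=
      (thomSys F E e).MU.E.map_id n
    rw [this]
    exact CofIn.of_isIso (evenCell_extClosed _) _
  | succ m hm ih =>
    have h1 : (thomSys F E e).MU.E.map (homOfLE (hm.trans (Nat.le_succ m))) =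
        (thomSys F E e).MU.E.map (homOfLE hm) ≫
          (thomSys F E e).MU.E.map (homOfLE (Nat.le_succ m)) := by
      rw [← Functor.map_comp]; rfl
    rw [h1]
    exact CofIn.comp (evenCell_extClosed _) ih
      ((cofIn_map_succ F E e sph m).mono fun X hX => hX.mono (by omega))

include sph in
/-- The stages of `MU` are finite even complexes. -/
theorem evenCell_MU (n : ℕ) : EvenCell T 0 ((thomSys F E e).MU.E.obj n) := by
  obtain ⟨Z, g, h, D, hZ⟩ := cofIn_u_MU F E e sph n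
  exact (evenCell_extClosed 0).ext D EvenCell.unit (hZ.mono (by omega))

end Stage

section Main

variable {T : Type u} [Category.{v} T] [Preadditive T] [HasZeroObject T]
    [HasShift T ℤ] [∀ n : ℤ, (shiftFunctor T n).Additive] [Pretriangulated T] [IsTriangulated T]
    [MonoidalCategory T] [SymmetricCategory T] [TensorTriangulated T] [MonoidalClosed T]
    [HasCoproducts.{0} T] [HasProducts.{0} T] [StableCat T]

variable {F : SpaceFunctor T} {E : EvenSpheres T} {e : F.S.obj CCF ≅ E.L}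

/-- The cofibre of `MU n ⟶ MU` has only cells of dimension `≥ 2(n+1)`, and is even. -/
theorem evBig_ι (sph : ∀ n : ℤ, Nonempty (E.S n ≅ (𝟙_ T)⟦2 * n⟧)) (M : MUMon F E e) (n : ℕ) :
    CofIn (EvBig ((n : ℤ) + 1)) (M.ι n) :=
  evBig_of_tel M.tel n (fun k => ⟨0, evenCell_MU F E e sph k⟩)
    (fun _ hm => cofIn_map_MU F E e sph hm)

end Main

end Vale.Agent.P241.BD
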