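import Vale.Agent.P241.BD.Sort
import Vale.Agent.P241.BD.Stage
import Vale.Agent.P241.BD.Lift

/-!
# P241, block BD: existence of the skeleta of `MU`

`exists_isSkel` : for `M : MUMon F E e` and every `d` there is a `2d`-skeleton of `M.R`.
-/

open CategoryTheory MonoidalCategory Limits Pretriangulated ZeroObject
open Vale.Agent.P251.G Vale.Agent.P251.G.LC Vale.Agent.P251.I Vale.Agent.P251.T
  Vale.Agent.P251.H Vale.Agent.P251.M

universe v u

set_option linter.unusedSectionVars false

noncomputable section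

namespace Vale.Agent.P241.BD

variable {T : Type u} [Category.{v} T] [Preadditive T] [HasZeroObject T]
    [HasShift T ℤ] [∀ n : ℤ, (shiftFunctor T n).Additive] [Pretriangulated T] [IsTriangulated T]
    [MonoidalCategory T] [SymmetricCategory T] [TensorTriangulated T] [MonoidalClosed T]
    [HasCoproducts.{0} T] [HasProducts.{0} T] [StableCat T]

variable {F : SpaceFunctor T}

section
variable {E : EvenSpheres T} {e : F.S.obj CCF ≅ E.L}

/-- **The skeleta of `MU`**. -/
theorem exists_isSkel' (sph : ∀ n : ℤ, Nonempty (E.S n ≅ (𝟙_ T)⟦2 * n⟧)) (M : MUMon F E e)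
    (d : ℕ) : ∃ (s : Multiset ℤ) (B : T) (i : B ⟶ M.R), IsSkel M.R d s i := by
  obtain ⟨s, hs, hs0⟩ := Cl.exists_of_evenCell (evenCell_MU F E e sph d)
  obtain ⟨B, C, i, q, w, D, hB, hC⟩ := Cl.exists_sort (unit_conn F) (d : ℤ) hs
  refine ⟨_, B, i ≫ M.ι d, hB, fun k hk => hs0 k (Multiset.mem_filter.mp hk).1,
    fun k hk => (Multiset.mem_filter.mp hk).2, ?_⟩
  refine CofIn.comp (EvBig.extClosed _) ⟨C, q, w, D, EvBig.of_cl hC fun k hk => ?_⟩
    (evBig_ι sph M d)
  have := (Multiset.mem_filter.mp hk).2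
  omega

end

theorem exists_isSkel {e : F.S.obj CCF ≅ (stdEven T).L} (M : MUMon F (stdEven T) e)
    (d : ℕ) : ∃ (s : Multiset ℤ) (B : T) (i : B ⟶ M.R), IsSkel M.R d s i :=
  exists_isSkel' stdEven_sph M d

end Vale.Agent.P241.BD
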