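import Vale.Agent.P241.BD.Exists
import Vale.Agent.P241.BD.Count
import Vale.Agent.P241.Final.Ctx
import Vale.Agent.P241.H251.Growth

/-!
# P241, block BD: the skeleta of `MU`, main results

* `exists_isSkel_card`, `skelAll`, `Ctx.skelAll` : `2d`-skeleta of `MU`, with exactly `pc d` cells;
* `Skels R` : a chosen skeleton in every dimension, `Ctx.nonempty_skels`;
* `exists_growth` : the growth lemma for `pc`.
-/

open CategoryTheory MonoidalCategory Limits Pretriangulated ZeroObject
open Vale.Agent.P251.G Vale.Agent.P251.G.LC Vale.Agent.P251.I Vale.Agent.P251.T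
  Vale.Agent.P251.H Vale.Agent.P251.M

universe v u

set_option linter.unusedSectionVars false

noncomputable section

namespace Vale.Agent.P241.BD

theorem pc_eq : pc = H251.pc := rfl

theorem pc_zero : pc 0 = 1 := by decide

/-- The growth step: `2 ρ (b_{D+c} - b_D) + 1 ≤ b_D` for some (arbitrarily large) `D`. -/
theorem exists_growth (c ρ N : ℕ) :
    ∃ D, N ≤ D ∧ 2 * (ρ * (pc (D + c) - pc D)) + 1 ≤ pc D := H251.exists_growth c ρ N

theorem monotone_pc : Monotone pc := H251.monotone_pc

theorem pc_pos (n : ℕ) : 0 < pc n := H251.pc_pos n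

variable {T : Type u} [Category.{v} T] [Preadditive T] [HasZeroObject T]
    [HasShift T ℤ] [∀ n : ℤ, (shiftFunctor T n).Additive] [Pretriangulated T] [IsTriangulated T]
    [MonoidalCategory T] [SymmetricCategory T] [TensorTriangulated T] [MonoidalClosed T]
    [HasCoproducts.{0} T] [HasProducts.{0} T] [StableCat T]

/-- A chosen `2d`-skeleton for every `d`, with `pc d` cells. -/
structure Skels (R : T) where
  /-- the cells -/
  s : ℕ → Multiset ℤ
  /-- the skeleta -/
  B : ℕ → T
  /-- the inclusions -/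
  i : ∀ d, B d ⟶ R
  skel : ∀ d, IsSkel R d (s d) (i d)
  card : ∀ d, (s d).card = pc d

variable {F : SpaceFunctor T} {e : F.S.obj CCF ≅ (stdEven T).L}

theorem exists_isSkel_card (M : MUMon F (stdEven T) e) (b : MUBasis M.V) (d : ℕ) :
    ∃ (s : Multiset ℤ) (B : T) (i : B ⟶ M.R), IsSkel M.R d s i ∧ s.card = pc d := by
  obtain ⟨s, B, i, h⟩ := exists_isSkel M d
  exact ⟨s, B, i, h, IsSkel.card_eq (D := M.data b) (M.muUniv b) h⟩

/-- **The skeleta of `MU`**. -/
theorem skelAll (M : MUMon F (stdEven T) e) (b : MUBasis M.V) : SkelAll M.R := fun d => by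
  obtain ⟨s, B, i, h, hs⟩ := exists_isSkel_card M b d
  exact ⟨s, B, i, h, hs.le⟩

theorem nonempty_skels (M : MUMon F (stdEven T) e) (b : MUBasis M.V) : Nonempty (Skels M.R) := by
  choose s B i h hs using exists_isSkel_card M b
  exact ⟨⟨s, B, i, h, hs⟩⟩

end Vale.Agent.P241.BD

namespace Vale.Agent.P241.Final.Ctx

open Vale.Agent.P251.St Vale.Agent.P241.BD

variable {T : SHCat} {S : Susp T} (X : Ctx S)

theorem skelAll : SkelAll X.D.R := BD.skelAll X.M X.b

theorem nonempty_skels : Nonempty (Skels X.D.R) := BD.nonempty_skels X.M X.b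

include X in
/-- the connectivity of the unit, input of the lemmas of `BD/Lift.lean` -/
theorem conn : Conn (0 : ℤ) (𝟙_ T.C) := unit_conn X.F

end Vale.Agent.P241.Final.Ctx
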