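import Vale.Agent.P241.BD.Defs
import Vale.Agent.P093.N4.Dim
import Vale.Agent.P251.M.ActForm

/-!
# P241, block BD3 (file 1): products with skeleta of a ring spectrum

* `mulExt R θ κ : A ⊗ X ⟶ R ⊗ (P ⊗ Q)` : the external product of `θ : A ⟶ R ⊗ P` and
  `κ : X ⟶ R ⊗ Q`;
* `rlin R x` : the `R`-linear extension; `InjH K f` : `K ◁ f` is injective on homotopy groups;
  `injH_mulExt` : products with elements which act injectively on `K ⊗ R`;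
* `SkelAt R d s Q κ` : `κ : X ⟶ R ⊗ Q` is a `2d`-skeleton twisted by `Q`;
* `SkelAt.exists_lift`, `SkelAt.lift_unique` : lifting of maps from finite complexes of small
  dimension;
* `exists_mult` : for a finite complex `A` and `P = 𝟙⟦p⟧` there is `c` such that the external
  product with every `θ : A ⟶ R ⊗ P` maps the `2d`-skeleton to the `2(d + c)`-skeleton, for all `d`.
-/

open CategoryTheory MonoidalCategory Limits Pretriangulated ZeroObject MonObj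
open Vale.Agent.P251.T Vale.Agent.P251.S Vale.Agent.P251.H Vale.Agent.P251.M
open Vale.Agent.P093.N.LR (DimLE)

universe v u

set_option linter.unusedSectionVars false

namespace Vale.Agent.P241.BD

variable {T : Type u} [Category.{v} T] [Preadditive T] [HasZeroObject T]
    [HasShift T ℤ] [∀ n : ℤ, (shiftFunctor T n).Additive] [Pretriangulated T]
    [MonoidalCategory T]

section MulExt

variable [SymmetricCategory T]

/-- The external product of `θ : A ⟶ R ⊗ P` and `κ : X ⟶ R ⊗ Q`. -/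
def mulExt (R : T) [MonObj R] {A P X Q : T} (θ : A ⟶ R ⊗ P) (κ : X ⟶ R ⊗ Q) :
    A ⊗ X ⟶ R ⊗ (P ⊗ Q) :=
  (θ ⊗ₘ κ) ≫ tensorμ R P R Q ≫ (μ[R] ▷ (P ⊗ Q))

lemma whiskerRight_mulExt {R : T} [MonObj R] {A A' P X Q : T} (v : A' ⟶ A) (θ : A ⟶ R ⊗ P)
    (κ : X ⟶ R ⊗ Q) : (v ▷ X) ≫ mulExt R θ κ = mulExt R (v ≫ θ) κ := by
  unfold mulExt
  rw [← Category.assoc, ← tensorHom_id, tensorHom_comp_tensorHom, Category.id_comp]

lemma whiskerLeft_mulExt {R : T} [MonObj R] {A P X X' Q : T} (v : X' ⟶ X) (θ : A ⟶ R ⊗ P)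
    (κ : X ⟶ R ⊗ Q) : (A ◁ v) ≫ mulExt R θ κ = mulExt R θ (v ≫ κ) := by
  unfold mulExt
  rw [← Category.assoc, ← id_tensorHom, tensorHom_comp_tensorHom, Category.id_comp]

lemma tensorμ_assoc_right (R P R' Q N : T) :
    ((R ⊗ P) ◁ (α_ R' Q N).hom) ≫ tensorμ R P R' (Q ⊗ N) =
      (α_ (R ⊗ P) (R' ⊗ Q) N).inv ≫ (tensorμ R P R' Q ▷ N) ≫
        (α_ (R ⊗ R') (P ⊗ Q) N).hom ≫ ((R ⊗ R') ◁ (α_ P Q N).hom) := by
  unfold tensorμ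
  simp only [comp_whiskerRight, Category.assoc]
  monoidal

lemma mulExt_whiskerRight {R : T} [MonObj R] {A P X Q : T} (θ : A ⟶ R ⊗ P) (κ : X ⟶ R ⊗ Q)
    (N : T) : mulExt R θ ((κ ▷ N) ≫ (α_ R Q N).hom) =
      (α_ A X N).inv ≫ (mulExt R θ κ ▷ N) ≫ (α_ R (P ⊗ Q) N).hom ≫ (R ◁ (α_ P Q N).hom) := by
  unfold mulExt
  have h1 : (θ ⊗ₘ ((κ ▷ N) ≫ (α_ R Q N).hom)) =
      (α_ A X N).inv ≫ ((θ ⊗ₘ κ) ▷ N) ≫ (α_ (R ⊗ P) (R ⊗ Q) N).hom ≫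
        ((R ⊗ P) ◁ (α_ R Q N).hom) := by
    rw [tensorHom_def, tensorHom_def]
    simp only [comp_whiskerRight, Category.assoc, MonoidalCategory.whiskerLeft_comp]
    monoidal
  rw [h1]
  simp only [Category.assoc, comp_whiskerRight]
  rw [reassoc_of% (tensorμ_assoc_right R P R Q N), Iso.hom_inv_id_assoc]
  rw [associator_naturality_left_assoc, whisker_exchange]


/-- The `R`-linear extension `R ⊗ A ⟶ R ⊗ P` of `x : A ⟶ R ⊗ P`. -/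
def rlin (R : T) [MonObj R] {A P : T} (x : A ⟶ R ⊗ P) : R ⊗ A ⟶ R ⊗ P :=
  (R ◁ x) ≫ (α_ R R P).inv ≫ (μ[R] ▷ P)

lemma mulExt_eq_rlin {R : T} [MonObj R] [IsCommMonObj R] {A P X Q : T} (x : A ⟶ R ⊗ P)
    (κ : X ⟶ R ⊗ Q) : mulExt R x κ = (A ◁ κ) ≫ (α_ A R Q).inv ≫ ((β_ A R).hom ▷ Q) ≫
      (rlin R x ▷ Q) ≫ (α_ R P Q).hom := by
  unfold mulExt rlin
  have h1 : μ[R] ▷ (P ⊗ Q) = ((β_ R R).hom ▷ (P ⊗ Q)) ≫ (μ[R] ▷ (P ⊗ Q)) := by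
    rw [← comp_whiskerRight, IsCommMonObj.mul_comm]
  rw [h1, reassoc_of% (tensorμ_braid R P R Q), tensorHom_def']
  simp only [Category.assoc, comp_whiskerRight]
  have h2 : (x ▷ (R ⊗ Q)) ≫ (α_ (R ⊗ P) R Q).inv ≫ ((β_ (R ⊗ P) R).hom ▷ Q) =
      (α_ A R Q).inv ≫ ((β_ A R).hom ▷ Q) ≫ ((R ◁ x) ▷ Q) := by
    rw [associator_inv_naturality_left_assoc, ← comp_whiskerRight,
      BraidedCategory.braiding_naturality_left, comp_whiskerRight]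
  rw [reassoc_of% h2]
  congr 4
  rw [associator_naturality_left]
  monoidal


end MulExt

/-! ### Injectivity -/

section Inj

variable [SymmetricCategory T] [TensorTriangulated T]

/-- `K ◁ f` is injective on homotopy groups. -/
def InjH (K : T) {X Y : T} (f : X ⟶ Y) : Prop :=
  ∀ (j : ℤ) (y : (𝟙_ T)⟦j⟧ ⟶ K ⊗ X), y ≫ (K ◁ f) = 0 → y = 0

/-- tensoring with a sphere is faithful -/
lemma eq_zero_of_whiskerRight_sphere {a : ℤ} {A : T} (hA : Nonempty (A ≅ (𝟙_ T)⟦a⟧)) {X Y : T}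
    {f : X ⟶ Y} (h : f ▷ A = 0) : f = 0 := by
  obtain ⟨e⟩ := hA
  let e' : A ⊗ (𝟙_ T)⟦-a⟧ ≅ 𝟙_ T := whiskerRightIso e _ ≪≫ tensorUnitShiftIso _ (-a) ≪≫
    (shiftFunctorCompIsoId T a (-a) (by ring)).app (𝟙_ T)
  have h1 : f ▷ (A ⊗ (𝟙_ T)⟦-a⟧) = 0 := by
    rw [whiskerRight_tensor, h, MonoidalPreadditive.zero_whiskerRight, zero_comp, comp_zero]
  have h2 : f ▷ (𝟙_ T) = 0 := by
    have h3 := whisker_exchange f e'.hom
    rw [h1, zero_comp] at h3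
    rw [← cancel_epi (X ◁ e'.hom), h3, comp_zero]
  rw [whiskerRight_id] at h2
  rw [← cancel_epi (ρ_ X).hom, ← cancel_mono (ρ_ Y).inv, Category.assoc, h2, comp_zero, zero_comp]

lemma InjH.of_sphere {K X Y : T} {f : X ⟶ Y} (h : InjH K f) {W : T} {w : ℤ}
    (hW : Nonempty (W ≅ (𝟙_ T)⟦w⟧)) (y : W ⟶ K ⊗ X) (hy : y ≫ (K ◁ f) = 0) : y = 0 := by
  obtain ⟨e⟩ := hW
  have := h w (e.inv ≫ y) (by rw [Category.assoc, hy, comp_zero])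
  rw [← cancel_epi e.inv, this, comp_zero]

lemma InjH.comp {K X Y Z : T} {f : X ⟶ Y} {g : Y ⟶ Z} (hf : InjH K f) (hg : InjH K g) :
    InjH K (f ≫ g) := fun j y hy => hf j y (hg j _ (by
      rw [Category.assoc, ← MonoidalCategory.whiskerLeft_comp, hy]))

lemma InjH.of_comp {K X Y Z : T} {f : X ⟶ Y} {g : Y ⟶ Z} (h : InjH K (f ≫ g)) : InjH K f :=
  fun j y hy => h j y (by
    rw [MonoidalCategory.whiskerLeft_comp, ← Category.assoc, hy, zero_comp])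

lemma InjH.of_isIso {K X Y : T} (f : X ⟶ Y) [IsIso (K ◁ f)] : InjH K f := fun j y hy => by
  rw [← cancel_mono (K ◁ f), hy, zero_comp]

lemma InjH.whiskerRight {K X Y : T} {f : X ⟶ Y} (h : InjH K f) {A : T} {a : ℤ}
    (hA : Nonempty (A ≅ (𝟙_ T)⟦a⟧)) : InjH K (f ▷ A) := by
  intro j y hy
  obtain ⟨e⟩ := hA
  let A' : T := (𝟙_ T)⟦-a⟧
  let e' : A ⊗ A' ≅ 𝟙_ T := whiskerRightIso e _ ≪≫ tensorUnitShiftIso _ (-a) ≪≫
    (shiftFunctorCompIsoId T a (-a) (by ring)).app (𝟙_ T)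
  -- `(K ⊗ (X ⊗ A)) ⊗ A' ≅ K ⊗ X`, natural in `X`
  let c : ∀ X : T, (K ⊗ (X ⊗ A)) ⊗ A' ≅ K ⊗ X := fun X =>
    α_ K (X ⊗ A) A' ≪≫ whiskerLeftIso K (α_ X A A' ≪≫ whiskerLeftIso X e' ≪≫ ρ_ X)
  have hin : ((f ▷ A) ▷ A') ≫ (α_ Y A A').hom ≫ (Y ◁ e'.hom) ≫ (ρ_ Y).hom =
      ((α_ X A A').hom ≫ (X ◁ e'.hom) ≫ (ρ_ X).hom) ≫ f := by
    rw [associator_naturality_left_assoc, ← whisker_exchange_assoc, rightUnitor_naturality]
    simp only [Category.assoc]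
  have hc : ((K ◁ (f ▷ A)) ▷ A') ≫ (c Y).hom = (c X).hom ≫ (K ◁ f) := by
    simp only [c, Iso.trans_hom, whiskerLeftIso_hom, Category.assoc]
    rw [associator_naturality_middle_assoc, ← MonoidalCategory.whiskerLeft_comp, hin,
      MonoidalCategory.whiskerLeft_comp]
  have h1 : (y ▷ A') ≫ (c X).hom = 0 := by
    refine h.of_sphere (w := j - a) ⟨tensorUnitShiftIso _ (-a) ≪≫
      ((shiftFunctorAdd' T j (-a) (j - a) (by ring)).app (𝟙_ T)).symm⟩ _ ?_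
    rw [Category.assoc, ← hc, ← comp_whiskerRight_assoc, hy,
      MonoidalPreadditive.zero_whiskerRight, zero_comp]
  have h2 : y ▷ A' = 0 := by rw [← cancel_mono (c X).hom, h1, zero_comp]
  exact eq_zero_of_whiskerRight_sphere ⟨Iso.refl _⟩ h2

lemma InjH.iso_comp {K X Y Z : T} (e : X ≅ Y) {g : Y ⟶ Z} (hg : InjH K g) :
    InjH K (e.hom ≫ g) := (InjH.of_isIso e.hom).comp hg

lemma InjH.comp_iso {K X Y Z : T} {f : X ⟶ Y} (hf : InjH K f) (e : Y ≅ Z) :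
    InjH K (f ≫ e.hom) := hf.comp (InjH.of_isIso e.hom)

lemma InjH.whiskerLeft {K X Y : T} {f : X ⟶ Y} (h : InjH K f) {A : T} {a : ℤ}
    (hA : Nonempty (A ≅ (𝟙_ T)⟦a⟧)) : InjH K (A ◁ f) := by
  have h1 : A ◁ f = (β_ A X).hom ≫ (f ▷ A) ≫ (β_ Y A).hom := by
    rw [BraidedCategory.braiding_naturality_left, ← Category.assoc, SymmetricCategory.symmetry,
      Category.id_comp]
  rw [h1]
  exact ((h.whiskerRight hA).comp_iso (β_ Y A)).iso_comp (β_ A X)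

/-- **Injectivity of the product with `x`.** -/
theorem injH_mulExt {K R : T} [MonObj R] [IsCommMonObj R] {A P X Q : T} {x : A ⟶ R ⊗ P}
    {κ : X ⟶ R ⊗ Q} {a q : ℤ} (hA : Nonempty (A ≅ (𝟙_ T)⟦a⟧)) (hQ : Nonempty (Q ≅ (𝟙_ T)⟦q⟧))
    (hκ : InjH K κ) (hx : InjH K (rlin R x)) : InjH K (mulExt R x κ) := by
  rw [mulExt_eq_rlin]
  exact (hκ.whiskerLeft hA).comp ((((hx.whiskerRight hQ).comp_iso (α_ R P Q)).iso_comp
    (whiskerRightIso (β_ A R) Q)).iso_comp (α_ A R Q).symm)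

theorem whiskerLeft_mulExt_eq_zero {K R : T} [MonObj R] [IsCommMonObj R] {A P X Q : T}
    {x : A ⟶ R ⊗ P} {κ : X ⟶ R ⊗ Q} (hx : K ◁ rlin R x = 0) : K ◁ mulExt R x κ = 0 := by
  rw [mulExt_eq_rlin]
  have h1 : K ◁ (rlin R x ▷ Q) = 0 := by
    have := associator_naturality_middle K (rlin R x) Q
    rw [hx, MonoidalPreadditive.zero_whiskerRight, zero_comp] at this
    rw [← cancel_epi (α_ _ _ _).hom, ← this, comp_zero]
  simp only [MonoidalCategory.whiskerLeft_comp]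
  rw [h1]
  simp


end Inj

/-! ### Dimensions -/

lemma Cl.dimLE {s : Multiset ℤ} {X : T} (hX : Cl T s X) {d : ℤ} (hs : ∀ k ∈ s, k ≤ d) :
    DimLE (2 * d) X := by
  induction hX with
  | zero X hX => exact DimLE.zero hX
  | sphere k => exact DimLE.sphere (2 * k) (by have := hs k (by simp); omega)
  | ext Δ hΔ _ _ ih₁ ih₃ =>
    exact DimLE.ext Δ hΔ (ih₁ fun k hk => hs k (Multiset.mem_add.mpr (Or.inl hk)))
      (ih₃ fun k hk => hs k (Multiset.mem_add.mpr (Or.inr hk)))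

lemma IsSkel.dimLE [HasCoproducts.{0} T] {R : T} {d : ℕ} {s : Multiset ℤ} {B : T} {i : B ⟶ R}
    (h : IsSkel R d s i) : DimLE (2 * (d : ℤ)) B := h.cells.dimLE h.le

variable [SymmetricCategory T] [TensorTriangulated T] [HasCoproducts.{0} T]

/-- `κ : X ⟶ R ⊗ Q` is a `2d`-skeleton of `R` twisted by `Q`. -/
def SkelAt (R : T) (d : ℕ) (s : Multiset ℤ) (Q : T) {X : T} (κ : X ⟶ R ⊗ Q) : Prop :=
  ∃ (B : T) (i : B ⟶ R) (e : X ≅ B ⊗ Q), IsSkel R d s i ∧ κ = e.hom ≫ (i ▷ Q)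

namespace SkelAt

variable {R : T} {d : ℕ} {s : Multiset ℤ} {Q X : T} {κ : X ⟶ R ⊗ Q}

lemma iso_comp (h : SkelAt R d s Q κ) {X' : T} (e' : X' ≅ X) :
    SkelAt R d s Q (e'.hom ≫ κ) := by
  obtain ⟨B, i, e, hB, rfl⟩ := h
  exact ⟨B, i, e' ≪≫ e, hB, by simp⟩

lemma comp_iso (h : SkelAt R d s Q κ) {Q' : T} (e' : Q ≅ Q') :
    SkelAt R d s Q' (κ ≫ (R ◁ e'.hom)) := by
  obtain ⟨B, i, e, hB, rfl⟩ := h
  refine ⟨B, i, e ≪≫ whiskerLeftIso B e', hB, ?_⟩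
  simp only [Iso.trans_hom, whiskerLeftIso_hom, Category.assoc]
  rw [whisker_exchange]

/-- further suspension -/
lemma whiskerRight (h : SkelAt R d s Q κ) (Q' : T) :
    SkelAt R d s (Q ⊗ Q') ((κ ▷ Q') ≫ (α_ R Q Q').hom) := by
  obtain ⟨B, i, e, hB, rfl⟩ := h
  refine ⟨B, i, whiskerRightIso e Q' ≪≫ α_ B Q Q', hB, ?_⟩
  simp only [Iso.trans_hom, whiskerRightIso_hom, Category.assoc, comp_whiskerRight,
    associator_naturality_left]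

lemma dimLE (h : SkelAt R d s Q κ) {q : ℤ} (hQ : DimLE q Q) : DimLE (2 * (d : ℤ) + q) X := by
  obtain ⟨B, i, e, hB, -⟩ := h
  exact (hB.dimLE.tensor hQ _ rfl).of_iso e.symm

/-- the cofibre of `κ` is highly connected -/
lemma exists_dist (h : SkelAt R d s Q κ) {q : ℤ} (hQ : Nonempty (Q ≅ (𝟙_ T)⟦q⟧))
    (h0 : Conn (0 : ℤ) (𝟙_ T))
    (hcomp : ∀ {I : Type} (Y : I → T) (k : ℤ) (f : (𝟙_ T)⟦k⟧ ⟶ ∐ Y),
      ∃ (s : Finset I) (g : (𝟙_ T)⟦k⟧ ⟶ ∐ (fun i : s => Y i)),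
        g ≫ Sigma.desc (fun i : s => Sigma.ι Y i) = f) :
    ∃ (J : T) (g : R ⊗ Q ⟶ J) (w : J ⟶ X⟦(1 : ℤ)⟧), Dist κ g w ∧
      Conn (2 * (d : ℤ) + 2 + q) J := by
  obtain ⟨B, i, e, hB, rfl⟩ := h
  obtain ⟨Z, a, b, D, hZ⟩ := hB.cof
  obtain ⟨eQ⟩ := hQ
  obtain ⟨J, g, w, D'⟩ := exists_cone (e.hom ≫ (i ▷ Q))
  refine ⟨J, g, w, D', ?_⟩
  -- `J ≅ Z ⊗ Q`
  have D1 := TensorTriangulated.distinguished Q _ D
  have hc : Conn (2 * ((d : ℤ) + 1)) Z := hZ.1.conn h0 hcomp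
  have hc' : Conn (2 * (d : ℤ) + 2 + q) (Q ⊗ Z) := by
    refine Conn.of_iso ?_ (hc.shift q (2 * (d : ℤ) + 2 + q) (by ring))
    exact (tensorUnitShiftIso Z q).symm ≪≫ whiskerLeftIso Z eQ.symm ≪≫ β_ Z Q
  have h1 : CofIn (Conn (T := T) (2 * (d : ℤ) + 2 + q)) (Q ◁ i) := ⟨_, _, _, D1, hc'⟩
  obtain ⟨J', g', w', D2, hJ'⟩ := h1
  -- compare the two triangles
  have hsq : (e.hom ≫ (β_ B Q).hom) ≫ (Q ◁ i) = (e.hom ≫ (i ▷ Q)) ≫ (β_ R Q).hom := by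
    rw [Category.assoc, Category.assoc, ← BraidedCategory.braiding_naturality_left]
  obtain ⟨c, h₂, h₃⟩ := D'.map₃ D2 (e.hom ≫ (β_ B Q).hom) (β_ R Q).hom hsq.symm
  have i1 : IsIso (e.hom ≫ (β_ B Q).hom) := inferInstance
  have i2 : IsIso (β_ R Q).hom := inferInstance
  have : IsIso c := isIso₃_of_isIso₁₂
    ({ hom₁ := e.hom ≫ (β_ B Q).hom, hom₂ := (β_ R Q).hom, hom₃ := c, comm₁ := hsq.symm,
       comm₂ := h₂, comm₃ := h₃ } :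
      Triangle.mk (e.hom ≫ (i ▷ Q)) g w ⟶ Triangle.mk (Q ◁ i) g' w') D' D2 i1 i2
  exact hJ'.of_iso (asIso c).symm

/-- maps from finite complexes of dimension `≤ n < 2d + 2 + q` lift to the skeleton -/
lemma exists_lift (h : SkelAt R d s Q κ) {q : ℤ} (hQ : Nonempty (Q ≅ (𝟙_ T)⟦q⟧))
    (h0 : Conn (0 : ℤ) (𝟙_ T))
    (hcomp : ∀ {I : Type} (Y : I → T) (k : ℤ) (f : (𝟙_ T)⟦k⟧ ⟶ ∐ Y),
      ∃ (s : Finset I) (g : (𝟙_ T)⟦k⟧ ⟶ ∐ (fun i : s => Y i)),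
        g ≫ Sigma.desc (fun i : s => Sigma.ι Y i) = f)
    {n : ℤ} {W : T} (hW : DimLE n W) (hn : n < 2 * (d : ℤ) + 2 + q) (f : W ⟶ R ⊗ Q) :
    ∃ g : W ⟶ X, g ≫ κ = f := by
  obtain ⟨J, a, w, D, hJ⟩ := h.exists_dist hQ h0 hcomp
  obtain ⟨g, hg⟩ := Triangle.coyoneda_exact₂ _ D f (hW.hom_eq_zero hn hJ _)
  exact ⟨g, hg.symm⟩

/-- the lift is unique if `n + 1 < 2d + 2 + q` -/
lemma lift_unique (h : SkelAt R d s Q κ) {q : ℤ} (hQ : Nonempty (Q ≅ (𝟙_ T)⟦q⟧))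
    (h0 : Conn (0 : ℤ) (𝟙_ T))
    (hcomp : ∀ {I : Type} (Y : I → T) (k : ℤ) (f : (𝟙_ T)⟦k⟧ ⟶ ∐ Y),
      ∃ (s : Finset I) (g : (𝟙_ T)⟦k⟧ ⟶ ∐ (fun i : s => Y i)),
        g ≫ Sigma.desc (fun i : s => Sigma.ι Y i) = f)
    {n : ℤ} {W : T} (hW : DimLE n W) (hn : n + 1 < 2 * (d : ℤ) + 2 + q) {f g : W ⟶ X}
    (hfg : f ≫ κ = g ≫ κ) : f = g := by
  obtain ⟨J, a, w, D, hJ⟩ := h.exists_dist hQ h0 hcomp
  rw [← sub_eq_zero]
  obtain ⟨b, hb⟩ := Triangle.coyoneda_exact₂ _ (inv_rot_of_distTriang _ D) (f - g) (by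
    change (f - g) ≫ κ = 0
    rw [Preadditive.sub_comp, hfg, sub_self])
  have h1 : b = 0 := hW.hom_eq_zero (m := 2 * (d : ℤ) + 2 + q - 1) (by omega)
    (hJ.shift (-1) _ (by ring)) b
  rw [hb, h1]
  exact zero_comp

end SkelAt

/-- **Multiplication of skeleta.** If `A` is a finite complex of dimension `≤ a` and
`a < 2c + 2 + p`, then the external product with `θ : A ⟶ R ⊗ 𝟙⟦p⟧` maps the `2d`-skeleton to the
`2(d + c)`-skeleton. -/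
theorem exists_mult {R : T} [MonObj R] (h0 : Conn (0 : ℤ) (𝟙_ T))
    (hcomp : ∀ {I : Type} (Y : I → T) (k : ℤ) (f : (𝟙_ T)⟦k⟧ ⟶ ∐ Y),
      ∃ (s : Finset I) (g : (𝟙_ T)⟦k⟧ ⟶ ∐ (fun i : s => Y i)),
        g ≫ Sigma.desc (fun i : s => Sigma.ι Y i) = f)
    {A P Q X X' : T} {a p q : ℤ} {c d d' : ℕ} {s s' : Multiset ℤ} {κ : X ⟶ R ⊗ Q}
    {κ' : X' ⟶ R ⊗ (P ⊗ Q)} (hA : DimLE a A) (hP : Nonempty (P ≅ (𝟙_ T)⟦p⟧))
    (hc : a < 2 * (c : ℤ) + 2 + p) (hd : d + c ≤ d') (hQ : Nonempty (Q ≅ (𝟙_ T)⟦q⟧))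
    (hκ : SkelAt R d s Q κ) (hκ' : SkelAt R d' s' (P ⊗ Q) κ') (θ : A ⟶ R ⊗ P) :
    ∃ m : A ⊗ X ⟶ X', m ≫ κ' = mulExt R θ κ := by
  obtain ⟨eP⟩ := hP
  obtain ⟨eQ⟩ := hQ
  have hPQ : Nonempty (P ⊗ Q ≅ (𝟙_ T)⟦p + q⟧) :=
    ⟨(eP ⊗ᵢ eQ) ≪≫ tensorUnitShiftIso _ q ≪≫
      ((shiftFunctorAdd' T p q (p + q) rfl).app (𝟙_ T)).symm⟩
  have hX : DimLE (2 * (d : ℤ) + q) X :=
    hκ.dimLE ((DimLE.sphere q le_rfl).of_iso eQ.symm)
  have hAX : DimLE (a + (2 * (d : ℤ) + q)) (A ⊗ X) := hA.tensor hX _ rfl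
  have hd' : ((d : ℤ) + c) ≤ d' := by exact_mod_cast hd
  exact hκ'.exists_lift hPQ h0 hcomp hAX (by omega) _

end Vale.Agent.P241.BD
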