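import Vale.Agent.P241.BD.Mult
import Vale.Agent.P241.BD.Cells
import Vale.Agent.P241.H435.RealSt
import Vale.Agent.P251.I.CofTriangle

/-!
# P241, block BD3 (file 2): products with skeleta, realised by pointed maps of spaces

`exists_mult_space` : for a finite cell space `C` and `P = 𝟙⟦p⟧` there is `c` such that for every
`θ : Σ^∞ C⁺ ⟶ R ⊗ P` and every `d` there are finite cell spaces `B`, `B'` which are
twisted `2d`- and `2(d + c)`-skeleta of `R` and a pointed map `μ : C⁺ ∧ B⁺ ⟶ B'⁺` which covers the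
external product with `θ`.
-/

open CategoryTheory MonoidalCategory Limits Pretriangulated ZeroObject MonObj
open Vale.Agent.P251.G Vale.Agent.P251.G.LC Vale.Agent.P251.T Vale.Agent.P251.M Vale.Agent.P251.I
open Vale.Agent.P093.N.LR (DimLE)
open Vale.Agent.P241.H435

universe v u

set_option linter.unusedSectionVars false

namespace Vale.Agent.P241.BD

section

variable {T : Type u} [Category.{v} T] [Preadditive T] [HasZeroObject T]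
    [HasShift T ℤ] [∀ n : ℤ, (shiftFunctor T n).Additive] [Pretriangulated T] [IsTriangulated T]
    [MonoidalCategory T] [SymmetricCategory T] [TensorTriangulated T] [MonoidalClosed T]
    [HasCoproducts.{0} T] [HasProducts.{0} T] [StableCat T]

/-- finite cell spaces have finite dimension -/
theorem dimLE_obj (F : SpaceFunctor T) {X : LC} (hX : FC X) :
    ∃ d : ℤ, DimLE d (F.S.obj ⟨X, hX⟩) := by
  have key : ∀ (X : LC) (_ : FC X) (h : FC X), ∃ d : ℤ, DimLE d (F.S.obj ⟨X, h⟩) := by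
    intro X hX
    induction hX with
    | empty =>
      intro h
      exact ⟨0, DimLE.zero (F.isZero (inferInstanceAs (IsEmpty Empty)))⟩
    | sph n =>
      intro h
      exact ⟨n, (DimLE.sphere (n : ℤ) le_rfl).of_iso (sphIso F n).symm⟩
    | @hequiv X Y hX e ih =>
      intro h
      obtain ⟨f, g, h1, h2⟩ := e
      have := F.isIso_map (FCat.hom f : (⟨X, hX⟩ : FCat) ⟶ ⟨Y, h⟩) ⟨g, h1, h2⟩
      obtain ⟨d, hd⟩ := ih hX
      exact ⟨d, hd.of_iso (asIso (F.S.map (FCat.hom f : (⟨X, hX⟩ : FCat) ⟶ ⟨Y, h⟩)))⟩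
    | @ext A B i hi hA hC ihA ihC =>
      intro h
      obtain ⟨d, hd⟩ := ihA hA
      obtain ⟨d', hd'⟩ := ihC hC
      exact ⟨max d d', DimLE.ext _
        (F.cof_distinguished (FCat.hom i : (⟨A, hA⟩ : FCat) ⟶ ⟨B, h⟩) hi)
        (hd.mono (le_max_left _ _)) (hd'.mono (le_max_right _ _))⟩
  exact key X hX hX

/-- a skeleton, twisted by a sphere of dimension `≥ k₀`, is realised by a finite cell space -/
lemma IsSkel.exists_space {R : T} {d : ℕ} {s : Multiset ℤ} {B : T} {i : B ⟶ R}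
    (h : IsSkel R d s i) (F : SpaceFunctor T) :
    ∃ k₀ : ℤ, ∀ k : ℤ, k₀ ≤ k → ∀ Q : T, Nonempty (Q ≅ (𝟙_ T)⟦k⟧) →
      ∃ (Z : FCat) (κ : F.S.obj Z ⟶ R ⊗ Q), SkelAt R d s Q κ := by
  obtain ⟨d', hd'⟩ := h.cells.exists_evenCell
  obtain ⟨Z, k₀, e⟩ := EvenCell.realC (F := F) hd'
  refine ⟨k₀, fun k hk Q hQ => ?_⟩
  obtain ⟨eQ⟩ := hQ
  obtain ⟨e₁⟩ := raise' e (k - k₀).toNat k (by omega)
  let e₂ := e₁ ≪≫ whiskerLeftIso B eQ.symm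
  exact ⟨_, e₂.hom ≫ (i ▷ Q), B, i, e₂, h, rfl⟩

/-- the suspension of a twisted skeleton -/
abbrev susK (F : SpaceFunctor T) {B : FCat} {R Q : T} (κ : F.S.obj B ⟶ R ⊗ Q) (N : FCat) :
    F.S.obj (B ⊗ N) ⟶ R ⊗ (Q ⊗ F.S.obj N) :=
  (Functor.Monoidal.μIso F.S B N).inv ≫ (κ ▷ F.S.obj N) ≫ (α_ R Q (F.S.obj N)).hom

lemma SkelAt.susK {F : SpaceFunctor T} {B : FCat} {R Q : T} {κ : F.S.obj B ⟶ R ⊗ Q} {d : ℕ}
    {s : Multiset ℤ} (h : SkelAt R d s Q κ) (N : FCat) :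
    SkelAt R d s (Q ⊗ F.S.obj N) (susK F κ N) :=
  (h.whiskerRight (F.S.obj N)).iso_comp (Functor.Monoidal.μIso F.S B N).symm

lemma suspend (F : SpaceFunctor T) {C B B' : FCat} {R P Q : T} [MonObj R]
    {θ : F.S.obj C ⟶ R ⊗ P} {κ : F.S.obj B ⟶ R ⊗ Q} {κ' : F.S.obj B' ⟶ R ⊗ (P ⊗ Q)}
    {g : F.S.obj (C ⊗ B) ⟶ F.S.obj B'}
    (hg : (Functor.Monoidal.μIso F.S C B).hom ≫ g ≫ κ' = mulExt R θ κ) (N : FCat)
    (h : (C ⊗ B) ⊗ N ⟶ B' ⊗ N)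
    (hh : F.S.map h = (Functor.Monoidal.μIso F.S _ N).inv ≫ (g ▷ F.S.obj N) ≫
      (Functor.Monoidal.μIso F.S _ N).hom) :
    (Functor.Monoidal.μIso F.S C (B ⊗ N)).hom ≫ F.S.map ((α_ C B N).inv ≫ h) ≫
      (susK F κ' N ≫ (R ◁ (α_ P Q (F.S.obj N)).hom)) = mulExt R θ (susK F κ N) := by
  unfold susK
  rw [← whiskerLeft_mulExt, mulExt_whiskerRight, ← hg, Functor.map_comp, hh]
  have h1 := Functor.LaxMonoidal.associativity_inv F.S C B N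
  simp only [Functor.Monoidal.μIso_hom, Functor.Monoidal.μIso_inv] at *
  rw [← cancel_epi (F.S.obj C ◁ Functor.LaxMonoidal.μ F.S B N)]
  simp only [Category.assoc]
  rw [reassoc_of% h1]
  simp only [comp_whiskerRight, Category.assoc, Functor.Monoidal.μ_δ_assoc,
    Functor.Monoidal.whiskerLeft_μ_δ_assoc]

lemma nonempty_sphere_tensor {Q Q' : T} {a b c : ℤ} (h : a + b = c)
    (hQ : Nonempty (Q ≅ (𝟙_ T)⟦a⟧)) (hQ' : Nonempty (Q' ≅ (𝟙_ T)⟦b⟧)) :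
    Nonempty (Q ⊗ Q' ≅ (𝟙_ T)⟦c⟧) := by
  obtain ⟨e⟩ := hQ
  obtain ⟨e'⟩ := hQ'
  obtain ⟨e''⟩ := nonempty_unit_shift_add (T := T) a b c h
  exact ⟨(e ⊗ᵢ e') ≪≫ e''⟩

/-- **Products with skeleta, realised by pointed maps.** -/
theorem exists_mult_FC {R : T} [MonObj R] (F : SpaceFunctor T) (C : FCat) (p : ℤ) :
    ∃ c : ℕ, ∀ (P : T), Nonempty (P ≅ (𝟙_ T)⟦p⟧) → ∀ (θ : F.S.obj C ⟶ R ⊗ P) (d : ℕ),
      ∀ {s s' : Multiset ℤ} {B₀ B₀' : T} {i : B₀ ⟶ R} {i' : B₀' ⟶ R}, IsSkel R d s i →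
        IsSkel R (d + c) s' i' →
      ∃ (B B' : FCat) (Q : T) (q : ℤ) (κ : F.S.obj B ⟶ R ⊗ Q) (κ' : F.S.obj B' ⟶ R ⊗ (P ⊗ Q))
        (m : C ⊗ B ⟶ B'), Even q ∧ Nonempty (Q ≅ (𝟙_ T)⟦q⟧) ∧ SkelAt R d s Q κ ∧
        SkelAt R (d + c) s' (P ⊗ Q) κ' ∧
        (Functor.Monoidal.μIso F.S C B).hom ≫ F.S.map m ≫ κ' = mulExt R θ κ := by
  obtain ⟨a, ha⟩ := dimLE_obj F C.property
  refine ⟨(a - p).toNat, fun P hP θ d s s' B₀ B₀' i i' hs hs' => ?_⟩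
  obtain ⟨k₀, hk₀⟩ := hs.exists_space F
  obtain ⟨k₁, hk₁⟩ := hs'.exists_space F
  obtain ⟨k, hk, hk', hke⟩ : ∃ k : ℤ, k₀ ≤ k ∧ k₁ ≤ p + k ∧ Even k :=
    ⟨2 * max (max k₀ (k₁ - p)) 0, by omega, by omega, even_two_mul _⟩
  have hQ : Nonempty ((𝟙_ T)⟦k⟧ ≅ (𝟙_ T)⟦k⟧) := ⟨Iso.refl _⟩
  obtain ⟨Z, κ, hκ⟩ := hk₀ k hk _ hQ
  obtain ⟨Z', κ', hκ'⟩ := hk₁ (p + k) hk' _ (nonempty_sphere_tensor rfl hP hQ)
  obtain ⟨mT, hmT⟩ := exists_mult (Vale.Agent.P251.M.unit_conn F)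
    (fun Y k f => StableCat.compact k Y f) ha hP (by omega : a < 2 * ((a - p).toNat : ℤ) + 2 + p)
    le_rfl hQ hκ hκ' θ
  obtain ⟨n, h, hh⟩ := F.full ((Functor.Monoidal.μIso F.S C Z).inv ≫ mT)
  have h1 := suspend F (θ := θ) (κ := κ) (κ' := κ')
    (g := (Functor.Monoidal.μIso F.S C Z).inv ≫ mT) (by
      rw [Category.assoc, Iso.hom_inv_id_assoc, hmT]) (SphF n) h hh
  have hQn : Nonempty ((𝟙_ T)⟦k⟧ ⊗ F.S.obj (SphF n) ≅ (𝟙_ T)⟦k + n⟧) :=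
    nonempty_sphere_tensor rfl hQ ⟨sphIso F n⟩
  rcases Nat.even_or_odd n with hn | hn
  · exact ⟨_, _, _, k + n, _, _, _, hke.add (by exact_mod_cast hn), hQn, hκ.susK _,
      (hκ'.susK _).comp_iso _, h1⟩
  · have h2 := suspend F h1 (SphF 1) (((α_ C Z (SphF n)).inv ≫ h) ▷ SphF 1) (by
      rw [Functor.Monoidal.map_whiskerRight]
      simp)
    refine ⟨_, _, _, k + n + 1, _, _, _, ?_, nonempty_sphere_tensor rfl hQn ⟨sphIso F 1⟩,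
      (hκ.susK _).susK _, (((hκ'.susK _).comp_iso _).susK _).comp_iso _, h2⟩
    rw [add_assoc]
    exact hke.add (by
      have := hn.add_one
      exact_mod_cast this)

end

section St

open Vale.Agent.P251.St (Space Map SHCat Susp toLC fc_toLC fc_ofLC ofLC ofHom)

variable {T : SHCat} (S : Susp T)

/-- **Products with skeleta, realised by pointed maps** (for `S : Susp T`). -/
theorem exists_mult_space {R : T.C} [MonObj R] {C : Space} (hC : Vale.Agent.P251.St.FC C) (p : ℤ) :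
    ∃ c : ℕ, ∀ (P : T.C), Nonempty (P ≅ (𝟙_ T.C)⟦p⟧) → ∀ (θ : S.obj C ⟶ R ⊗ P) (d : ℕ),
      ∀ {s s' : Multiset ℤ} {B₀ B₀' : T.C} {i : B₀ ⟶ R} {i' : B₀' ⟶ R}, IsSkel R d s i →
        IsSkel R (d + c) s' i' →
      ∃ (B B' : Space) (_ : Vale.Agent.P251.St.FC B) (_ : Vale.Agent.P251.St.FC B') (Q : T.C)
        (q : ℤ) (κ : S.obj B ⟶ R ⊗ Q) (κ' : S.obj B' ⟶ R ⊗ (P ⊗ Q)) (m : Map (C.prod B) B'),
        Even q ∧ Nonempty (Q ≅ (𝟙_ T.C)⟦q⟧) ∧ SkelAt R d s Q κ ∧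
        SkelAt R (d + c) s' (P ⊗ Q) κ' ∧ S.mul C B ≫ S.map m ≫ κ' = mulExt R θ κ := by
  obtain ⟨c, h⟩ := exists_mult_FC (R := R) S.toSpaceFunctor ⟨toLC C, fc_toLC hC⟩ p
  refine ⟨c, fun P hP θ d s s' B₀ B₀' i i' hs hs' => ?_⟩
  obtain ⟨B, B', Q, q, κ, κ', m, hq, hQ, hκ, hκ', hm⟩ := h P hP θ d hs hs'
  exact ⟨ofLC B.obj, ofLC B'.obj, fc_ofLC B.property, fc_ofLC B'.property, Q, q, κ, κ',
    ofHom m.hom, hq, hQ, hκ, hκ', hm⟩

end St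

end Vale.Agent.P241.BD
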