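import Vale.Agent.P241.BD.SkelMap
import Vale.Agent.P241.BD2.Vt
import Vale.Agent.P241.H795.KStmt
import Vale.Agent.P241.H603.Bas

/-!
# P241, block BD3: the good maps, final form

`skelMap` : the input `SkelMap` of the stage lemma (`H132/Stage.lean`).
-/

open CategoryTheory MonoidalCategory Limits Pretriangulated ZeroObject MonObj
open Vale.Agent.P251.T Vale.Agent.P251.M Vale.Agent.P251.I
open Vale.Agent.P251.St (SHCat Susp)
open Vale.Agent.P241.St Vale.Agent.P241.Final

set_option linter.unusedSectionVars false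

namespace Vale.Agent.P241.BD

variable {T : SHCat} {S : Susp T} {p : ℕ}

/-- **Good maps.** -/
theorem skelMap (X : Ctx S) (hp : p.Prime) : H132.SkelMap S p (fun t _ _ v => R.VV X p t v) := by
  have : Fact p.Prime := ⟨hp⟩
  refine skelMap_of X (fun n K hK s B hB => ?_) (fun K X ε q n Q hQ hX => ?_)
    (fun K X Y ε n e hX => ?_) (fun t K hK k x hx A P e => ?_)
  · obtain ⟨b, hb⟩ := H603.exists_kbasis_cl (oddZero_of_isMoravaK hK) hB
    exact ⟨b, fun i => by rw [add_zero]; exact hb i⟩
  · obtain ⟨b, hb⟩ := hX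
    obtain ⟨b', hb'⟩ := H603.exists_kbasis_sphere hQ b
    refine ⟨b', fun i => ?_⟩
    rw [hb', show b.e i + q + (ε + q) = (b.e i + ε) + 2 * q by ring]
    exact (hb i).add (even_two_mul q)
  · obtain ⟨b, hb⟩ := hX
    obtain ⟨b', hb'⟩ := H603.exists_kbasis_iso e b
    exact ⟨b', fun i => by rw [hb']; exact hb i⟩
  · have hKA : BD2.KAStmt S p X := fun n hn K hK => H795.nonempty_KA X.muUniv hn hK
    have h1 := BD2.isIso_rlin_of_isVT hKA hK hx e
    exact InjH.of_isIso _

end Vale.Agent.P241.BD
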