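import Vale.Agent.P241.BD.MultSp
import Vale.Agent.P241.BD.Main
import Vale.Agent.P241.H132.Stage
import Vale.Agent.P241.R.TSide

/-!
# P241, block BD3 (file 3): the good maps `m v_t^N : B_d → Σ^{-N'} B_{d+c}`, on spaces

`skelMap_of` : the statement `SkelMap` of `H132/Stage.lean`.
-/

open CategoryTheory MonoidalCategory Limits Pretriangulated ZeroObject MonObj
open Vale.Agent.P251.T Vale.Agent.P251.M Vale.Agent.P251.I
open Vale.Agent.P251.St (SHCat Susp Space Map FC ofHom toHom toLC smash Rn)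
open Vale.Agent.P241.St Vale.Agent.P241.Final

universe v u

set_option linter.unusedSectionVars false

namespace Vale.Agent.P241.BD

section

variable {T : Type u} [Category.{v} T] [Preadditive T] [HasZeroObject T]
    [HasShift T ℤ] [∀ n : ℤ, (shiftFunctor T n).Additive] [Pretriangulated T] [IsTriangulated T]
    [MonoidalCategory T] [SymmetricCategory T] [TensorTriangulated T] [MonoidalClosed T]
    [HasCoproducts.{0} T] [HasProducts.{0} T] [StableCat T]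

variable {R : T} {d : ℕ} {s : Multiset ℤ}

lemma IsSkel.injH {B : T} {i : B ⟶ R} (h : IsSkel R d s i) {K : T} (hK : OddZero K) :
    InjH K i := by
  intro j y hy
  rcases Int.even_or_odd' j with ⟨k, rfl | rfl⟩
  · exact h.tensor_inj hK k y hy
  · exact h.oddZero hK k y

lemma SkelAt.injH {Q X : T} {κ : X ⟶ R ⊗ Q} (h : SkelAt R d s Q κ) {q : ℤ}
    (hQ : Nonempty (Q ≅ (𝟙_ T)⟦q⟧)) {K : T} (hK : OddZero K) : InjH K κ := by
  obtain ⟨B, i, e, hB, rfl⟩ := h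
  exact ((hB.injH hK).whiskerRight hQ).iso_comp e

lemma rlin_whisker [MonObj R] {A P S₀ : T} (e : A ≅ S₀ ⊗ P) (x : S₀ ⟶ R) :
    rlin R (e.hom ≫ x ▷ P) = (R ◁ e.hom) ≫ (α_ R S₀ P).inv ≫ ((R ◁ x ≫ μ[R]) ▷ P) := by
  unfold rlin
  simp

lemma injH_rlin [MonObj R] {A P S₀ : T} (e : A ≅ S₀ ⊗ P) (x : S₀ ⟶ R) {p : ℤ}
    (hP : Nonempty (P ≅ (𝟙_ T)⟦p⟧)) {K : T} (hx : InjH K (R ◁ x ≫ μ[R])) :
    InjH K (rlin R (e.hom ≫ x ▷ P)) := by
  rw [rlin_whisker]
  exact ((hx.whiskerRight hP).iso_comp (α_ R S₀ P).symm).iso_comp (whiskerLeftIso R e)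

/-- Spheres of different parity are not isomorphic. -/
lemma even_add_of_iso {K : T} (hK : OddZero K) {f : 𝟙_ T ⟶ K} (hf : f ≠ 0) {a b : ℤ}
    (e : (𝟙_ T)⟦a⟧ ≅ (𝟙_ T)⟦b⟧) : Even (a + b) := by
  by_contra h
  rw [Int.not_even_iff_odd] at h
  obtain ⟨k, hk⟩ := h
  -- `1⟦a⟧ ≅ 1⟦b⟧ → K⟦b⟧` is zero, as `a - b` is odd
  have h1 : ∀ g : (𝟙_ T)⟦a⟧ ⟶ K⟦b⟧, g = 0 :=
    fun g => eq_zero_of_shift (2 * (k - b) + 1) b a (by omega) (fun f => hK (k - b) f) g
  have h2 : f⟦b⟧' = 0 := by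
    rw [← cancel_epi e.hom, h1 (e.hom ≫ f⟦b⟧'), comp_zero]
  exact hf ((shiftFunctor T b).map_injective (by rw [h2, Functor.map_zero]))

end

section St

variable {T : SHCat} {S : Susp T} {p : ℕ}

/-- Morava `K`-theories are even. -/
theorem oddZero_of_isMoravaK {n : ℕ} {K : RingA T} (h : IsMoravaK S p n K) : OddZero K.obj := by
  intro k f
  unfold IsMoravaK at h
  split_ifs at h with hn
  · exact h.conc _ f (by omega)
  · refine h.1.sparse _ f fun hd => ?_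
    obtain ⟨m, hm⟩ := hd
    have : 2 * k + 1 = 2 * (((p : ℤ) ^ n - 1) * m) := by rw [hm]; ring
    omega

theorem unit_ne_of_isMoravaK {n : ℕ} {K : RingA T} (h : IsMoravaK S p n K) : K.unit ≠ 0 := by
  unfold IsMoravaK at h
  split_ifs at h with hn
  · exact h.ne
  · exact h.1.ne

/-- the homology of the realised skeleta -/
theorem SkelAt.basisPar
    (hB1 : ∀ (n : ℕ) (K : RingA T), IsMoravaK S p n K → ∀ {s : Multiset ℤ} {B : T.C},
      Cl T.C s B → H132.BasisPar K B 0 s.card)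
    (hB2 : ∀ (K : RingA T) {X : T.C} {ε q : ℤ} {n : ℕ} {Q : T.C}, Nonempty (Q ≅ (𝟙_ T.C)⟦q⟧) →
      H132.BasisPar K X ε n → H132.BasisPar K (X ⊗ Q) (ε + q) n)
    (hB3 : ∀ (K : RingA T) {X Y : T.C} {ε : ℤ} {n : ℕ}, (X ≅ Y) → H132.BasisPar K X ε n →
      H132.BasisPar K Y ε n)
    {n : ℕ} {K : RingA T} (hK : IsMoravaK S p n K) {R Q X : T.C} {d : ℕ} {s : Multiset ℤ}
    {κ : X ⟶ R ⊗ Q} (h : SkelAt R d s Q κ) {q : ℤ} (hQ : Nonempty (Q ≅ (𝟙_ T.C)⟦q⟧)) :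
    H132.BasisPar K X q s.card := by
  obtain ⟨B, i, e, hB, -⟩ := h
  have h1 := hB2 K hQ (hB1 n K hK hB.cells)
  rw [zero_add] at h1
  exact hB3 K e.symm h1

theorem basisPar_congr {K : RingA T} {X : T.C} {ε ε' : ℤ} {n : ℕ} (h : Even (ε + ε'))
    (hX : H132.BasisPar K X ε n) : H132.BasisPar K X ε' n := by
  obtain ⟨b, hb⟩ := hX
  refine ⟨b, fun i => ?_⟩
  have h1 := (hb i).add h
  have h2 : b.e i + ε + (ε + ε') = (b.e i + ε') + 2 * ε := by ring
  rw [h2] at h1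
  exact (Int.even_add.1 h1).2 (even_two_mul ε)

/-- the product with a map of spaces -/
theorem map_timesR {A C B : Space} (hA : FC A) (hC : FC C) (hB : FC B) (v : Map A C) :
    S.mul A B ≫ S.map (H132.timesR v B) = (S.map v ▷ S.obj B) ≫ S.mul C B := by
  have h1 := S.mul_natural v (⟨id, continuous_id, rfl⟩ : Map B B) (H132.timesR v B) hA hC hB hB
    (fun x y => H132.timesR_smash v B x y)
  have h2 : S.map (⟨id, continuous_id, rfl⟩ : Map B B) = 𝟙 (S.obj B) :=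
    S.map_id _ hB rfl
  rw [h2] at h1
  refine h1.trans ?_
  rw [SHCat.comp, SHCat.tenHom, tensorHom_id]

theorem map_compM {A B C : Space} (hA : FC A) (hB : FC B) (hC : FC C) (f : Map A B) (g : Map B C) :
    S.map (H132.compM f g) = S.map f ≫ S.map g := S.map_comp f g _ hA hB hC rfl

/-- **The good maps.** -/
theorem skelMap_of (X : Ctx S)
    (hB1 : ∀ (n : ℕ) (K : RingA T), IsMoravaK S p n K → ∀ {s : Multiset ℤ} {B : T.C},
      Cl T.C s B → H132.BasisPar K B 0 s.card)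
    (hB2 : ∀ (K : RingA T) {X : T.C} {ε q : ℤ} {n : ℕ} {Q : T.C}, Nonempty (Q ≅ (𝟙_ T.C)⟦q⟧) →
      H132.BasisPar K X ε n → H132.BasisPar K (X ⊗ Q) (ε + q) n)
    (hB3 : ∀ (K : RingA T) {X Y : T.C} {ε : ℤ} {n : ℕ}, (X ≅ Y) → H132.BasisPar K X ε n →
      H132.BasisPar K Y ε n)
    (hV : ∀ (t : ℕ) (K : RingA T), IsMoravaK S p t K → ∀ (k : ℤ) (x : (stdEven T.C).S k ⟶ X.D.R),
      R.IsVT X.D p t k x → ∀ {A P : T.C} (e : A ≅ (stdEven T.C).S k ⊗ P),
        InjH K.obj (rlin X.D.R (e.hom ≫ x ▷ P))) :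
    H132.SkelMap S p (fun t _ _ v => R.VV X p t v) := by
  intro K hK t a C v hC hv
  obtain ⟨-, -, k, x, P, r, hP, θ, e, hx, hθ⟩ := hv
  obtain ⟨c, hc⟩ := exists_mult_space S (R := X.D.R) hC r
  obtain ⟨Sk⟩ := X.nonempty_skels
  refine ⟨c, fun d => ?_⟩
  obtain ⟨B, B', hB, hB', Q, q, κ, κ', m, hqe, hQ, hκ, hκ', hm⟩ :=
    hc P hP θ d (Sk.skel d) (Sk.skel (d + c))
  have hRn : FC (Rn a) := Vale.Agent.P251.St.FC.sph a
  have hRB : FC ((Rn a).prod B) := Vale.Agent.P251.St.fc_prod hRn hB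
  have hCB : FC (C.prod B) := Vale.Agent.P251.St.fc_prod hC hB
  have hRa : Nonempty (S.obj (Rn a) ≅ (𝟙_ T.C)⟦(a : ℤ)⟧) := ⟨sphIso S.toSpaceFunctor a⟩
  have := S.mul_isIso hRn hB
  -- the parity
  have hpar : Even ((a : ℤ) + (2 * k + r)) := by
    obtain ⟨e1⟩ := hRa
    obtain ⟨e2⟩ := nonempty_sphere_tensor (a := 2 * k) (b := r) rfl
      ⟨(stdEven T.C).sphIso (Iso.refl _) k⟩ hP
    exact even_add_of_iso (oddZero_of_isMoravaK (hK 0)) (unit_ne_of_isMoravaK (hK 0))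
      (e1.symm ≪≫ e ≪≫ e2)
  refine ⟨B, B', m, ⟨hRB, hB', ⟨a + q, fun j => ⟨?_, ?_⟩⟩, ?_⟩⟩
  · have h1 := hB2 (K j) hRa (hκ.basisPar hB1 hB2 hB3 (hK j) hQ)
    rw [Sk.card, add_comm q (a : ℤ)] at h1
    exact hB3 _ (β_ _ _ ≪≫ asIso (S.mul (Rn a) B)) h1
  · have h1 := hκ'.basisPar hB1 hB2 hB3 (hK j) (nonempty_sphere_tensor rfl hP hQ)
    rw [Sk.card] at h1
    refine basisPar_congr ?_ h1
    have h2 : r + q + (a + q) = (a + (2 * k + r)) + 2 * (q - k) := by ring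
    rw [h2]
    exact hpar.add (even_two_mul _)
  · have h1 : InjH (K t).obj (mulExt X.D.R (S.map v ≫ θ) κ) := by
      rw [hθ]
      exact injH_mulExt hRa hQ (hκ.injH hQ (oddZero_of_isMoravaK (hK t)))
        (hV t (K t) (hK t) k x hx e)
    have h2 : S.mul (Rn a) B ≫ S.map (H132.compM (H132.timesR v B) m) ≫ κ' =
        mulExt X.D.R (S.map v ≫ θ) κ := by
      rw [map_compM hRB hCB hB', Category.assoc, ← Category.assoc, map_timesR hRn hC hB,
        Category.assoc, hm, whiskerRight_mulExt]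
    rw [← h2] at h1
    have h3 : InjH (K t).obj (S.mul (Rn a) B ≫ S.map (H132.compM (H132.timesR v B) m)) := by
      refine InjH.of_comp (g := κ') ?_
      rwa [Category.assoc]
    have h4 : S.map (H132.compM (H132.timesR v B) m) = inv (S.mul (Rn a) B) ≫
        (S.mul (Rn a) B ≫ S.map (H132.compM (H132.timesR v B) m)) := by simp
    intro n y hy
    refine (h3.iso_comp (asIso (S.mul (Rn a) B)).symm) n y ?_
    rw [asIso, Iso.symm_hom]
    rw [← h4]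
    exact hy

end St

end Vale.Agent.P241.BD
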