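import Vale.Agent.P241.BD.Cells

/-!
# P241, block BD1b: sorting the cells of a finite even complex

`Cl.exists_sort`: a finite even complex `X` with cells `s` is an extension `B ⟶ X ⟶ C` of the
complex `B` of its cells of dimension `≤ 2d` by the complex `C` of its cells of dimension `> 2d`.
-/

open CategoryTheory MonoidalCategory Limits Pretriangulated ZeroObject
open Vale.Agent.P251.T Vale.Agent.P251.S Vale.Agent.P251.H Vale.Agent.P251.M

universe v u

set_option linter.unusedSectionVars false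

namespace Vale.Agent.P241.BD

variable {T : Type u} [Category.{v} T] [Preadditive T] [HasZeroObject T]
    [HasShift T ℤ] [∀ n : ℤ, (shiftFunctor T n).Additive] [Pretriangulated T]
    [MonoidalCategory T]

namespace Cl

/-- connectivity of a complex with cells of dimension `≥ m` -/
lemma conn_of_le (hc : Conn (T := T) 0 (𝟙_ T)) {s : Multiset ℤ} {X : T} (hX : Cl T s X) (m : ℤ)
    (hs : ∀ k ∈ s, m ≤ 2 * k) : Conn m X := by
  induction hX with
  | zero X hX => exact Conn.zero hX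
  | sphere k =>
    intro j hj f
    have h1 := hs k (Multiset.mem_singleton_self k)
    exact eq_zero_of_shift (j - 2 * k) (2 * k) j (by ring) (hc (j - 2 * k) (by omega)) f
  | ext Δ hΔ _ _ ih₁ ih₃ =>
    exact Conn.ext Δ hΔ (ih₁ fun k hk => hs k (Multiset.mem_add.mpr (Or.inl hk)))
      (ih₃ fun k hk => hs k (Multiset.mem_add.mpr (Or.inr hk)))

/-- maps from cells of dimension `≤ 2d` to the suspension of cells of dimension `> 2d` vanish -/
lemma eq_zero_of_le_of_lt (hc : Conn (T := T) 0 (𝟙_ T)) (d : ℤ) {s t : Multiset ℤ} {X Y : T}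
    (hX : Cl T s X) (hY : Cl T t Y) (hs : ∀ k ∈ s, k ≤ d) (ht : ∀ k ∈ t, d < k)
    (f : X ⟶ Y⟦(1 : ℤ)⟧) : f = 0 := by
  refine hX.hom_eq_zero (m := 2 * d + 2 + 1) (fun k hk => by have := hs k hk; omega) ?_ f
  have h1 : Conn (2 * d + 2) Y := conn_of_le hc hY _ fun j hj => by
    have := ht j hj
    omega
  exact h1.shift 1 _ rfl

/-- **Sorting the cells.** -/
theorem exists_sort [IsTriangulated T] (hc : Conn (T := T) 0 (𝟙_ T)) (d : ℤ)
    {s : Multiset ℤ} {X : T} (h : Cl T s X) :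
    ∃ (B C : T) (i : B ⟶ X) (q : X ⟶ C) (w : C ⟶ B⟦(1 : ℤ)⟧), Dist i q w ∧
      Cl T (s.filter (· ≤ d)) B ∧ Cl T (s.filter (d < ·)) C := by
  induction h with
  | zero X hX =>
    refine ⟨X, 0, 𝟙 X, 0, 0, contractible_distinguished X, ?_, ?_⟩
    · exact Cl.zero X hX
    · exact Cl.zero _ (isZero_zero T)
  | sphere k =>
    by_cases hk : k ≤ d
    · refine ⟨_, 0, 𝟙 _, 0, 0, contractible_distinguished _, ?_, ?_⟩
      · rw [Multiset.filter_singleton, if_pos hk]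
        exact Cl.sphere k
      · rw [Multiset.filter_singleton, if_neg (not_lt.mpr hk)]
        exact Cl.zero _ (isZero_zero T)
    · refine ⟨0, _, 0, 𝟙 _, 0, contractible_distinguished₁ _, ?_, ?_⟩
      · rw [Multiset.filter_singleton, if_neg hk]
        exact Cl.zero _ (isZero_zero T)
      · rw [Multiset.filter_singleton, if_pos (not_le.mp hk)]
        exact Cl.sphere k
  | ext Δ hΔ h₁ h₃ ih₁ ih₃ =>
    rename_i s t
    obtain ⟨B₁, C₁, i₁, q₁, w₁, D₁, hB₁, hC₁⟩ := ih₁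
    obtain ⟨B₃, C₃, i₃, q₃, w₃, D₃, hB₃, hC₃⟩ := ih₃
    have DΔ : Dist Δ.mor₁ Δ.mor₂ Δ.mor₃ := hΔ
    obtain ⟨W, v, w, DW⟩ := exists_cone (i₁ ≫ Δ.mor₁)
    obtain ⟨m₁, m₃, -, -, -, -, O₁⟩ := exists_octa rfl D₁ DΔ DW
    obtain ⟨l, hl⟩ := O₁.lift₃ i₃ (eq_zero_of_le_of_lt hc d hB₃ hC₁
      (fun k hk => (Multiset.mem_filter.mp hk).2) (fun k hk => (Multiset.mem_filter.mp hk).2) _)
    obtain ⟨C, n, e, DC⟩ := exists_cone l
    obtain ⟨n₁, n₃, -, -, -, -, O₂⟩ := exists_octa hl DC O₁.rot D₃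
    obtain ⟨_, _, O₂'⟩ := Dist.invRot' O₂
    have hC : Cl T (s.filter (d < ·) + t.filter (d < ·)) C :=
      Cl.dist O₂' (Cl.of_iso ((shiftShiftNeg C₁ (1 : ℤ)).symm) hC₁) hC₃
    obtain ⟨E, r, r', DE⟩ := exists_cone (v ≫ n)
    obtain ⟨_, _, -, -, -, -, O₃⟩ := exists_octa rfl DW.rot DC.rot DE
    obtain ⟨_, _, DE'⟩ := Dist.invRot' DE
    have hE : Cl T (s.filter (· ≤ d) + t.filter (· ≤ d)) (E⟦(-1 : ℤ)⟧) :=
      Cl.ext _ (Triangle.shift_distinguished _ O₃ (-1))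
        (Cl.of_iso ((shiftShiftNeg B₁ (1 : ℤ)).symm) hB₁)
        (Cl.of_iso ((shiftShiftNeg B₃ (1 : ℤ)).symm) hB₃)
    refine ⟨_, C, _, _, _, DE', ?_, ?_⟩
    · rw [Multiset.filter_add]
      exact hE
    · rw [Multiset.filter_add]
      exact hC

end Cl

end Vale.Agent.P241.BD
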